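import Vale.Agent.N016.Up

/-!
P016, positive density: primes `p` in `(X, (1 + μ) X]` such that `p - 1` has a huge prime factor.
-/

open Finset Filter

namespace Vale.Agent.N016

open Vale.Agent.P005 Vale.Agent.P005Z

theorem pnt {μ e : ℝ} (h0 : 0 ≤ μ) (h1 : μ ≤ 1) (he : 0 < e) : ∀ᶠ X : ℕ in atTop,
    (Nat.primeCounting X : ℝ) ≤ (1 + e) * (X / Real.log X) ∧
      (1 + μ) * (1 - 2 * e) * (X / Real.log X) ≤ Nat.primeCounting ⌊(1 + μ) * X⌋₊ := by
  have t0 := Vale.Agent.PNT.primeCounting_mul_log_div_tendsto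
  have t1 : Tendsto (fun X : ℕ => (1 + μ) * X) atTop atTop :=
    tendsto_natCast_atTop_atTop.const_mul_atTop (by linarith)
  have t2 : Tendsto (fun X : ℕ => Real.log X) atTop atTop :=
    Real.tendsto_log_atTop.comp tendsto_natCast_atTop_atTop
  filter_upwards [(t0.comp tendsto_natCast_atTop_atTop).eventually
    (gt_mem_nhds (show 1 < 1 + e by linarith)), (t0.comp t1).eventually
    (lt_mem_nhds (show 1 - e < 1 by linarith)), t2.eventually_ge_atTop (1 / e),
    eventually_ge_atTop 2] with X e1 e2 e3 e4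
  simp only [Function.comp, Nat.floor_natCast] at e1 e2
  have hX : (2 : ℝ) ≤ X := by exact_mod_cast e4
  have hl : 0 < Real.log X := Real.log_pos (by linarith)
  rw [div_lt_iff₀ (by linarith)] at e1
  rw [lt_div_iff₀ (by positivity)] at e2
  rw [← mul_div_assoc, ← mul_div_assoc, le_div_iff₀ hl, div_le_iff₀ hl]
  refine ⟨e1.le, le_of_mul_le_mul_left ?_ (show 0 < 1 + e by linarith)⟩
  have b1 : Real.log ((1 + μ) * X) ≤ (1 + e) * Real.log X := by
    rw [Real.log_mul (by linarith) (by linarith)]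
    rw [div_le_iff₀ he] at e3
    linarith [Real.log_le_sub_one_of_pos (show 0 < 1 + μ by linarith)]
  have b2 := mul_le_mul_of_nonneg_left b1 (Nat.cast_nonneg (Nat.primeCounting ⌊(1 + μ) * X⌋₊))
  have b3 : 0 ≤ e * e * ((1 + μ) * X) := by positivity
  linarith

open Classical in
/-- many primes `p` in given classes such that `p - 1` has a huge prime factor -/
theorem big (h : CNTC) {η : ℝ} (h0 : 0 < η) (h1 : η < 1) : ∃ κ : ℝ, 0 < κ ∧
    ∀ (M : ℕ) (R : Finset ℕ), M ≠ 0 → R ⊆ range M → (∀ x ∈ R, x.Coprime M) →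
      ∀ μ : ℝ, 0 < μ → μ ≤ 1 → ∀ᶠ X : ℕ in atTop,
        κ * ((R.card : ℝ) / Nat.totient M) * (μ * (X / Real.log X)) ≤
          (((Ioc X ⌊(1 + μ) * X⌋₊).filter fun p => p.Prime ∧ p % M ∈ R ∧
            ∃ m Q : ℕ, Q.Prime ∧ p - 1 = m * Q ∧ m ≤ ⌊(X : ℝ) ^ η⌋₊).card : ℝ) := by
  obtain ⟨s, hs⟩ : ∃ s, s = 1 - η / 2 := ⟨_, rfl⟩
  obtain ⟨t, ht⟩ : ∃ t, t = 1 - η / 4 := ⟨_, rfl⟩
  have s0 : 0 < s := by linarith
  have s1 : s < t := by linarith
  have s2 : t < 1 := by linarith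
  have t0 : 0 < t := by linarith
  set θ := Real.log (t / s) with hθ
  have hθ0 : 0 < θ := Real.log_pos ((one_lt_div s0).2 s1)
  refine ⟨θ / 4, by positivity, fun M R hM hR hc μ m0 m1 => ?_⟩
  have hM1 : 1 ≤ M := Nat.pos_of_ne_zero hM
  have hφ : (0 : ℝ) < Nat.totient M := by exact_mod_cast Nat.totient_pos.2 hM1
  obtain ⟨e, he⟩ : ∃ e, e = μ / 22 := ⟨_, rfl⟩
  have e0 : 0 < e := by linarith
  obtain ⟨u, u1, u2, u3⟩ : ∃ u : ℝ, t < u ∧ u < 1 ∧ u ≤ t * Real.exp (e * θ) :=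
    ⟨min ((t + 1) / 2) (t * Real.exp (e * θ)), lt_min (by linarith) (lt_mul_of_one_lt_right t0
      (Real.one_lt_exp_iff.2 (by positivity))), (min_le_left _ _).trans_lt (by linarith),
      min_le_right _ _⟩
  have u4 : Real.log (u / s) ≤ θ + e * θ := by
    have := Real.log_le_log (t0.trans u1) u3
    rw [Real.log_mul t0.ne' (Real.exp_pos _).ne', Real.log_exp] at this
    rw [Real.log_div (by linarith) s0.ne']
    have b1 : θ = Real.log t - Real.log s := Real.log_div t0.ne' s0.ne'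
    linarith
  have hY : ∀ X : ℕ, X ≤ ⌊(1 + μ) * X⌋₊ := fun X =>
    Nat.le_floor (le_mul_of_one_le_left (Nat.cast_nonneg X) (by linarith))
  have tY : Tendsto (fun X : ℕ => ⌊(1 + μ) * X⌋₊) atTop atTop := tendsto_atTop_mono hY tendsto_id
  have hx : 0 < e * θ / Nat.totient M := by positivity
  filter_upwards [tY.eventually ((eventually_all_finset R).2 fun ρ hρ =>
      low h s0 s1 s2 hM1 (hc ρ hρ) hx),
    (eventually_all_finset R).2 fun ρ hρ =>
      upc h s0 (s1.trans u1) u2 hM1 (hc ρ hρ) (mem_range.1 (hR hρ)) hx,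
    pnt m0.le m1 e0, ((tendsto_rpow_atTop (sub_pos.2 u1)).comp
      tendsto_natCast_atTop_atTop).eventually_ge_atTop 2, eventually_ge_atTop 2]
    with X e1 e2 ⟨e3, e4⟩ e5 e6
  have hXY := hY X
  have hX2 : (2 : ℝ) ≤ X := by exact_mod_cast e6
  have hY2 : (⌊(1 + μ) * X⌋₊ : ℝ) ≤ 2 * X :=
    (Nat.floor_le (by positivity)).trans (mul_le_mul_of_nonneg_right (by linarith) (by linarith))
  generalize ⌊(1 + μ) * X⌋₊ = Y at *
  have hXY' : (X : ℝ) ≤ Y := by exact_mod_cast hXY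
  have hY0 : (0 : ℝ) < Y := by linarith
  have hA : 0 ≤ (X : ℝ) / Real.log X := div_nonneg (by linarith) (Real.log_natCast_nonneg X)
  generalize (X : ℝ) / Real.log X = A at *
  have hw : ∀ n, win s t Y n ⊆ win s u X n := fun n q hq => by
    obtain ⟨q1, q2, q3⟩ := mem_win.1 hq
    refine mem_win.2 ⟨(Real.rpow_le_rpow (by linarith) hXY' s0.le).trans_lt q1, q2.trans ?_, q3⟩
    have b1 : (2 : ℝ) ^ t ≤ (X : ℝ) ^ (u - t) := by
      refine le_trans ?_ e5
      conv_rhs => rw [← Real.rpow_one 2]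
      exact Real.rpow_le_rpow_of_exponent_le one_le_two s2.le
    calc (Y : ℝ) ^ t ≤ (2 * X) ^ t := Real.rpow_le_rpow hY0.le hY2 t0.le
      _ = 2 ^ t * (X : ℝ) ^ t := Real.mul_rpow two_pos.le (by linarith)
      _ ≤ (X : ℝ) ^ (u - t) * (X : ℝ) ^ t := by gcongr
      _ = _ := by rw [← Real.rpow_add (by linarith), sub_add_cancel]
  set S := (Ioc X Y).filter fun p => p.Prime ∧ p % M ∈ R ∧
    ∃ m Q : ℕ, Q.Prime ∧ p - 1 = m * Q ∧ m ≤ ⌊(X : ℝ) ^ η⌋₊ with hS
  have k1 : S.card = ∑ ρ ∈ R, (S.filter fun p => p % M = ρ).card :=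
    card_eq_sum_card_fiberwise fun p hp => (mem_filter.1 hp).2.2.1
  have k2 : ∀ ρ ∈ R, θ / 4 / Nat.totient M * (μ * A) ≤
      ((S.filter fun p => p % M = ρ).card : ℝ) := by
    intro ρ hρ
    have b3 : SS s t M ρ Y ≤ SS s u M ρ X + ((S.filter fun p => p % M = ρ).card : ℝ) * 2 := by
      rw [SS, ← sum_filter_add_sum_filter_not _ (fun p => p ≤ X)]
      refine add_le_add ((sum_le_sum fun p _ => Nat.cast_le.2 (card_le_card (hw _))).trans
        (sum_le_sum_of_subset_of_nonneg (fun p hp => ?_) fun _ _ _ => Nat.cast_nonneg _)) ?_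
      · obtain ⟨p0, p4⟩ := mem_filter.1 hp
        obtain ⟨p1, p5⟩ := mem_filter.1 p0
        exact mem_filter.2 ⟨Cnt.mem_prm.2 ⟨Nat.zero_le _, by omega, (Cnt.mem_prm.1 p1).2.2⟩, p5⟩
      rw [← sum_filter_ne_zero]
      refine (sum_le_card_nsmul _ _ 2 fun p hp => ?_).trans ?_
      · obtain ⟨-, p2, p3⟩ := Cnt.mem_prm.1
          (mem_filter.1 (mem_filter.1 (mem_filter.1 hp).1).1).1
        have p4 := p3.two_le
        have hL : 0 < Real.log Y := Real.log_pos (by linarith)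
        have c1 : Real.log ((p - 1 : ℕ) : ℝ) ≤ Real.log Y :=
          Real.log_le_log (Nat.cast_pos.2 (by omega)) (Nat.cast_le.2 (by omega))
        have c2 := (card_win s t (show 1 ≤ Y by omega) (p - 1)).trans
          ((win_log s t Y (by omega)).trans c1)
        have c3 : 1 / 2 * Real.log Y * (win s t Y (p - 1)).card ≤
            s * Real.log Y * (win s t Y (p - 1)).card := by gcongr; linarith
        refine le_of_mul_le_mul_left ?_ hL
        linarith
      rw [nsmul_eq_mul]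
      refine mul_le_mul_of_nonneg_right (Nat.cast_le.2 (card_le_card fun p hp => ?_)) two_pos.le
      obtain ⟨p0, p4⟩ := mem_filter.1 hp
      obtain ⟨p7, p8⟩ := mem_filter.1 p0
      obtain ⟨p1, p5⟩ := mem_filter.1 p7
      obtain ⟨-, p2, p3⟩ := Cnt.mem_prm.1 p1
      have p6 : p % M = ρ := Eq.trans p5 (Nat.mod_eq_of_lt (mem_range.1 (hR hρ)))
      obtain ⟨q, hq⟩ := card_ne_zero.1 (Nat.cast_ne_zero.1 p4)
      obtain ⟨q1, -, q2, m, hm⟩ := mem_win.1 hq
      refine mem_filter.2 ⟨mem_filter.2 ⟨mem_Ioc.2 ⟨by omega, by omega⟩, p3, p6 ▸ hρ, m, q, q2,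
        by rw [hm, mul_comm], Nat.le_floor ?_⟩, p6⟩
      have c1 : (q : ℝ) * m ≤ Y := by exact_mod_cast (by omega : q * m ≤ Y)
      have c2 : (Y : ℝ) ^ s * m ≤ (Y : ℝ) ^ s * (Y : ℝ) ^ (η / 2) := by
        rw [← Real.rpow_add hY0, hs, sub_add_cancel, Real.rpow_one, ← hs]
        exact (mul_le_mul_of_nonneg_right q1.le (Nat.cast_nonneg m)).trans c1
      calc (m : ℝ) ≤ (Y : ℝ) ^ (η / 2) := le_of_mul_le_mul_left c2 (by positivity)
        _ ≤ (X * X) ^ (η / 2) := Real.rpow_le_rpow hY0.le (by nlinarith) (by positivity)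
        _ = _ := by
          rw [Real.mul_rpow (by linarith) (by linarith), ← Real.rpow_add (by linarith), add_halves]
    set z := θ / Nat.totient M with hz
    have z0 : 0 < z := by positivity
    have b1 : z * (1 - e) * ((1 + μ) * (1 - 2 * e) * A) ≤ SS s t M ρ Y := by
      refine (mul_le_mul_of_nonneg_left e4 (mul_nonneg z0.le (by linarith))).trans
        (le_trans (le_of_eq ?_) (e1 ρ hρ))
      rw [hz]
      ring
    have b2 : SS s u M ρ X ≤ z * (1 + 2 * e) * ((1 + e) * A) := by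
      refine (e2 ρ hρ).trans (mul_le_mul ?_ e3 (Nat.cast_nonneg _) (by positivity))
      have := div_le_div_of_nonneg_right u4 hφ.le
      refine (add_le_add this le_rfl).trans (le_of_eq ?_)
      rw [hz]
      ring
    have b4 : μ / 2 ≤ (1 - e) * ((1 + μ) * (1 - 2 * e)) - (1 + 2 * e) * (1 + e) := by
      have c1 : μ = 22 * e := by linarith
      have c2 : 0 ≤ e * e * e := by positivity
      have c3 : e * e ≤ e * (1 / 22) := mul_le_mul_of_nonneg_left (by linarith) e0.le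
      rw [c1]
      nlinarith
    have b5 := mul_le_mul_of_nonneg_left b4 (mul_nonneg z0.le hA)
    have b6 : θ / 4 / Nat.totient M * (μ * A) = z * A * (μ / 2) / 2 := by rw [hz]; ring
    linarith
  rw [k1, Nat.cast_sum]
  refine le_trans (le_of_eq ?_) (card_nsmul_le_sum _ _ _ k2)
  rw [nsmul_eq_mul]
  ring

end Vale.Agent.N016
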