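import Vale.Agent.P016Z.Cheb.Cheb
import Vale.Agent.P016Z.Cheb.Kum
import Vale.Agent.P004S.Ch.Abel

/-!
P016, positive density: the sharp upper bound for the primes which split in a Kummer field.
-/

open NumberField Finset

namespace Vale.Agent.N016

open Vale.Agent.P016Z

/-- primes of degree one, uniformly in the field, with the true main term -/
def CHEB1 : Prop := ∃ C δ : ℝ, 0 ≤ C ∧ 0 < δ ∧ ∀ (K : Type) [Field K] [NumberField K]
  [IsTotallyComplex K] (X Y : ℕ), 2 ≤ X → X ≤ Y → Y ≤ 2 * X →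
    ((∑ p ∈ (Ioc X Y).filter Nat.Prime, aK K p : ℕ) : ℝ) ≤
      (Y - X) / Real.log X + C * size K * (X : ℝ) ^ (1 - δ)

open Classical in
/-- the primes which split in the Kummer field of `a` and `l` -/
def SPLIT1 : Prop := ∀ a : ℤ, 2 ≤ |a| → ∃ C δ : ℝ, 0 ≤ C ∧ 0 < δ ∧ ∀ l : ℕ, l.Prime → |a| < l →
  ∀ X Y : ℕ, 2 ≤ X → X ≤ Y → Y ≤ 2 * X → (((Ioc X Y).filter (Bad a l)).card : ℝ) ≤
    2 * ((Y - X) / Real.log X) / (l : ℝ) ^ 2 + C * ((l : ℝ) ^ 2 * (X : ℝ) ^ (1 - δ))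

theorem li_le {X Y : ℕ} (hX : 2 ≤ X) (hY : X ≤ Y) :
    ∫ u in (X : ℝ)..Y, 1 / Real.log u ≤ (Y - X) / Real.log X := by
  have hX2 : (2 : ℝ) ≤ X := by exact_mod_cast hX
  have hY2 : (X : ℝ) ≤ Y := by exact_mod_cast hY
  have hl : 0 < Real.log X := Real.log_pos (by linarith)
  have h := intervalIntegral.norm_integral_le_of_norm_le_const (a := (X : ℝ))
    (b := (Y : ℝ)) (C := 1 / Real.log X) (f := fun u => 1 / Real.log u) fun u hu => by
      rw [Set.uIoc_of_le hY2] at hu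
      have h1 : Real.log X ≤ Real.log u := Real.log_le_log (by linarith) hu.1.le
      rw [Real.norm_of_nonneg (div_nonneg zero_le_one (by linarith))]
      exact one_div_le_one_div_of_le hl h1
  refine (le_abs_self _).trans (h.trans (le_of_eq ?_))
  rw [abs_of_nonneg (by linarith)]
  ring

theorem cheb1 {θ : ℝ} (h1 : 3 / 4 ≤ θ) (h2 : θ < 1) :
    HCONT → HBD → EXPLOG → NONVAN θ → CHEB1 := by
  rintro hC ⟨C₁, hB⟩ ⟨C₂, hE⟩ hN
  obtain ⟨C, δ, hC0, hδ, H⟩ := P004S.Ch.cnt (show 0 ≤ θ by linarith) h2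
  set D : ℝ := |C₁| + |C₂| + 1 with hD
  have hD1 : 1 ≤ D := by linarith [abs_nonneg C₁, abs_nonneg C₂]
  refine ⟨C * D, δ, by positivity, hδ, fun K _ _ _ X Y hX hY hY2 => ?_⟩
  obtain ⟨F, hF⟩ := hC K 1 one_ne_zero (fun _ => 1) fun _ => rfl
  obtain ⟨h, hh1, hh2, hh3⟩ := hE K 1 fun n => by simp
  have hn1 : (1 : ℝ) ≤ Module.finrank ℚ K := by exact_mod_cast Module.finrank_pos
  have hn2 := Cheb.finrank_le_size K
  have hsub : {s : ℂ | θ < s.re} ⊆ {s : ℂ | 3 / 4 < s.re} := fun s hs => h1.trans_lt hs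
  have hP : ∀ s, PK K (1 : ℕ →* ℂ) s =
      LSeries (fun n => ((if n.Prime then (aK K n : ℝ) else 0 : ℝ) : ℂ)) s := by
    intro s
    unfold PK
    congr 1
    funext n
    split_ifs <;> simp
  have key := H (fun n => if n.Prime then (aK K n : ℝ) else 0) (D * size K)
    (fun s => F s * Complex.exp (-h s)) (by nlinarith)
    (fun n => by split_ifs <;> positivity)
    (fun n => by
      split_ifs with hn
      · have : (aK K n : ℝ) ≤ Module.finrank ℚ K := by exact_mod_cast Cheb.aK_le K hn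
        nlinarith
      · nlinarith)
    ((hF.1.mono hsub).mul (hh1.mono hsub).neg.cexp)
    (fun s hs => mul_ne_zero (hN K F hF s hs) (Complex.exp_ne_zero _))
    (fun s hs => by
      have e : LK K (fun _ => 1) s = Complex.exp (PK K (1 : ℕ →* ℂ) s + h s) := hh3 s hs
      rw [hF.2 s hs, e, mul_assoc, ← Complex.exp_add, add_neg_cancel_right, hP])
    (fun s hs hs' => by
      have k1 := hB K F hF s (hsub hs) hs'
      have k2 := hh2 s (hsub hs)
      rw [norm_mul, Complex.norm_exp]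
      refine (mul_le_mul_of_nonneg_right k1 (Real.exp_pos _).le).trans ?_
      rw [← Real.exp_add]
      refine Real.exp_le_exp.2 ?_
      have k3 := (Complex.re_le_norm (-h s)).trans ((norm_neg _).trans_le k2)
      have k4 := abs_nonneg s.im
      have k5 : size K ≤ size K * (1 + |s.im|) := by nlinarith
      have k6 : C₁ * (size K * (1 + |s.im|)) ≤ |C₁| * (size K * (1 + |s.im|)) :=
        mul_le_mul_of_nonneg_right (le_abs_self _) (by linarith)
      have k7 : C₂ * Module.finrank ℚ K ≤ |C₂| * (size K * (1 + |s.im|)) :=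
        mul_le_mul (le_abs_self _) (by linarith) (by linarith) (abs_nonneg _)
      rw [hD]
      nlinarith) X Y hX hY hY2
  rw [Nat.cast_sum, Finset.sum_filter, mul_assoc C D]
  linarith [(abs_le.1 key).2, li_le hX hY]

theorem split1 (hC : CHEB1) (hK : KUM) : SPLIT1 := by
  classical
  intro a ha
  obtain ⟨C, δ, hC0, hδ, hC⟩ := hC
  obtain ⟨C', hK⟩ := hK a ha
  refine ⟨2 * C * |C'|, δ, by positivity, hδ, fun l hl hal X Y hX hY hY2 => ?_⟩
  obtain ⟨K, _, _, _, hs, hb⟩ := hK l hl hal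
  have h1 := hC K X Y hX hY hY2
  have h2 : ((Ioc X Y).filter (Bad a l)).card * (l * (l - 1)) ≤
      ∑ p ∈ (Ioc X Y).filter Nat.Prime, aK K p := by
    rw [← smul_eq_mul]
    refine (card_nsmul_le_sum _ (aK K) _ fun p hp => hb p (mem_filter.1 hp).2).trans ?_
    exact sum_le_sum_of_subset (monotone_filter_right _ fun p _ hp => hp.1)
  have hl2 : (2 : ℝ) ≤ l := by exact_mod_cast hl.two_le
  have h3 : (((Ioc X Y).filter (Bad a l)).card : ℝ) * (l * (l - 1)) ≤
      ((∑ p ∈ (Ioc X Y).filter Nat.Prime, aK K p : ℕ) : ℝ) := by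
    have : ((l - 1 : ℕ) : ℝ) = l - 1 := by rw [Nat.cast_sub hl.one_le, Nat.cast_one]
    rw [← this]
    exact_mod_cast h2
  set N : ℝ := (((Ioc X Y).filter (Bad a l)).card : ℝ) with hN
  have hN0 : 0 ≤ N := Nat.cast_nonneg _
  have hB : 0 ≤ (X : ℝ) ^ (1 - δ) := by positivity
  have hs1 : size K ≤ |C'| * (l : ℝ) ^ 4 := hs.trans (by gcongr; exact le_abs_self _)
  set A := ((Y : ℝ) - X) / Real.log X
  set B := (X : ℝ) ^ (1 - δ)
  have h4 : N * (l : ℝ) ^ 2 ≤ 2 * (N * (l * (l - 1))) := by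
    nlinarith [mul_nonneg hN0
      (mul_nonneg (by linarith : (0 : ℝ) ≤ l) (by linarith : (0 : ℝ) ≤ l - 2))]
  have h5 : C * size K * B ≤ C * (|C'| * (l : ℝ) ^ 4) * B := by gcongr
  have hl0 : (0 : ℝ) < (l : ℝ) ^ 2 := by positivity
  rw [← mul_le_mul_iff_of_pos_right hl0]
  have e : (2 * A / (l : ℝ) ^ 2 + 2 * C * |C'| * ((l : ℝ) ^ 2 * B)) * (l : ℝ) ^ 2 =
      2 * (A + C * (|C'| * (l : ℝ) ^ 4) * B) := by
    field_simp
  rw [e]
  linarith

end Vale.Agent.N016
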