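import Vale.Agent.P016Z.Fin.Artin

/-!
P016, positive density: the residue classes which avoid the small primes, and the case analysis.
-/

open Finset Filter

namespace Vale.Agent.N016

open Vale.Agent.P016Z Vale.Agent.P016Z.Art

theorem crt_card {m n : ℕ} (h : m.Coprime n) (hm : m ≠ 0) (hn : n ≠ 0) {R T : Finset ℕ}
    (hR : R ⊆ range m) (hT : T ⊆ range n) : ∃ S : Finset ℕ, S ⊆ range (m * n) ∧
      S.card = R.card * T.card ∧ ∀ x ∈ S, (∃ y ∈ R, x ≡ y [MOD m]) ∧ ∃ t ∈ T, x ≡ t [MOD n] := by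
  refine ⟨(R ×ˢ T).image fun z => (Nat.chineseRemainder h z.1 z.2 : ℕ), fun x hx => ?_, ?_,
    fun x hx => ?_⟩
  · obtain ⟨z, -, rfl⟩ := mem_image.1 hx
    exact mem_range.2 (Nat.chineseRemainder_lt_mul h _ _ hm hn)
  · rw [card_image_of_injOn, card_product]
    intro z hz z' hz' e
    obtain ⟨a1, a2⟩ := mem_product.1 hz
    obtain ⟨b1, b2⟩ := mem_product.1 hz'
    have c1 := (Nat.chineseRemainder h z.1 z.2).2
    have c2 := (Nat.chineseRemainder h z'.1 z'.2).2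
    simp only at e
    rw [e] at c1
    exact Prod.ext
      (Nat.ModEq.eq_of_lt_of_lt (c1.1.symm.trans c2.1) (mem_range.1 (hR a1)) (mem_range.1 (hR b1)))
      (Nat.ModEq.eq_of_lt_of_lt (c1.2.symm.trans c2.2) (mem_range.1 (hT a2)) (mem_range.1 (hT b2)))
  · obtain ⟨z, hz, rfl⟩ := mem_image.1 hx
    obtain ⟨a1, a2⟩ := mem_product.1 hz
    exact ⟨⟨_, a1, (Nat.chineseRemainder h z.1 z.2).2.1⟩, _, a2,
      (Nat.chineseRemainder h z.1 z.2).2.2⟩

/-- the classes which are `ρ` modulo `m` and neither `0` nor `1` modulo the primes of `L` -/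
theorem classes {m : ℕ} (hm : m ≠ 0) (ρ : ℕ) (L : Finset ℕ) (hL : ∀ l ∈ L, l.Prime ∧ ¬ l ∣ m) :
    ∃ (M : ℕ) (R : Finset ℕ), M ≠ 0 ∧ R ⊆ range M ∧
      (R.card : ℝ) * Nat.totient m = Nat.totient M * ∏ l ∈ L, (((l : ℝ) - 2) / ((l : ℝ) - 1)) ∧
      m ∣ M ∧ (∀ l ∈ L, l ∣ M) ∧ (∀ q : ℕ, q.Prime → q ∣ M → q ∣ m ∨ q ∈ L) ∧
      ∀ x ∈ R, x ≡ ρ [MOD m] ∧ ∀ l ∈ L, ¬ l ∣ x ∧ ¬ x ≡ 1 [MOD l] := by
  induction L using Finset.induction_on with
  | empty =>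
    refine ⟨m, {ρ % m}, hm, ?_, by simp, dvd_rfl, by simp, fun q _ h => Or.inl h, ?_⟩
    · simpa using Nat.mod_lt _ (Nat.pos_of_ne_zero hm)
    · simpa using Nat.mod_modEq ρ m
  | insert l L hl ih =>
    obtain ⟨M, R, h0, h1, h2, h3, h4, h5, h6⟩ := ih fun q hq => hL q (mem_insert_of_mem hq)
    obtain ⟨p1, p2⟩ := hL l (mem_insert_self l L)
    have hc : M.Coprime l := ((Nat.Prime.coprime_iff_not_dvd p1).2 fun h =>
      (h5 l p1 h).elim p2 hl).symm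
    obtain ⟨S, s1, s2, s3⟩ := crt_card (T := Ico 2 l) hc h0 p1.ne_zero h1
      fun t ht => mem_range.2 (mem_Ico.1 ht).2
    refine ⟨M * l, S, mul_ne_zero h0 p1.ne_zero, s1, ?_, h3.mul_right l, fun q hq => ?_,
      fun q hq h => ?_, fun x hx => ?_⟩
    · have e1 : (1 : ℝ) < l := by exact_mod_cast p1.one_lt
      have e2 : (l : ℝ) - 1 ≠ 0 := by linarith
      rw [s2, prod_insert hl, Nat.totient_mul hc, Nat.totient_prime p1, Nat.card_Ico]
      push_cast [Nat.cast_sub p1.two_le, Nat.cast_sub p1.one_le]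
      rw [mul_right_comm, h2]
      field_simp
    · rcases mem_insert.1 hq with rfl | hq
      · exact dvd_mul_left _ _
      · exact (h4 q hq).mul_right l
    · rcases (Nat.Prime.dvd_mul hq).1 h with h | h
      · exact (h5 q hq h).imp_right mem_insert_of_mem
      · exact Or.inr (mem_insert.2 (Or.inl ((Nat.prime_dvd_prime_iff_eq hq p1).1 h)))
    · obtain ⟨⟨y, y1, y2⟩, t, t1, t2⟩ := s3 x hx
      obtain ⟨y3, y4⟩ := h6 y y1
      refine ⟨(y2.of_dvd h3).trans y3, fun q hq => ?_⟩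
      rcases mem_insert.1 hq with rfl | hq
      · obtain ⟨t3, t4⟩ := mem_Ico.1 t1
        refine ⟨fun h => ?_, fun h => ?_⟩
        · have := Nat.le_of_dvd (by omega) ((t2.dvd_iff dvd_rfl).1 h)
          omega
        · have := Nat.ModEq.eq_of_lt_of_lt (t2.symm.trans h) t4 p1.one_lt
          omega
      · have y5 := y2.of_dvd (h4 q hq)
        exact ⟨fun h => (y4 q hq).1 ((y5.dvd_iff dvd_rfl).1 h),
          fun h => (y4 q hq).2 (y5.symm.trans h)⟩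

theorem wallis (j : ℕ) :
    1 / (4 * (j : ℝ) + 1) ≤ (∏ i ∈ range j, ((2 * (i : ℝ) + 1) / (2 * i + 2))) ^ 2 := by
  induction j with
  | zero => simp
  | succ j ih =>
    rw [prod_range_succ, mul_pow]
    refine le_trans ?_ (mul_le_mul_of_nonneg_right ih (sq_nonneg _))
    have hj : (0 : ℝ) ≤ j := Nat.cast_nonneg j
    push_cast
    rw [div_pow, div_mul_div_comm, div_le_div_iff₀ (by positivity) (by positivity)]
    nlinarith

theorem prod_ge (j : ℕ) (L : Finset ℕ) (hL : ∀ l ∈ L, l.Prime ∧ l ≠ 2 ∧ l < 2 * j + 3) :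
    0 ≤ ∏ l ∈ L, (((l : ℝ) - 2) / ((l : ℝ) - 1)) ∧
      1 / (4 * (j : ℝ) + 1) ≤ (∏ l ∈ L, (((l : ℝ) - 2) / ((l : ℝ) - 1))) ^ 2 := by
  have hb : ∀ l : ℕ, l ∈ (range j).image (fun i => 2 * i + 3) →
      0 ≤ ((l : ℝ) - 2) / ((l : ℝ) - 1) ∧ ((l : ℝ) - 2) / ((l : ℝ) - 1) ≤ 1 := by
    intro l hl
    obtain ⟨i, -, rfl⟩ := mem_image.1 hl
    have hi : (0 : ℝ) ≤ i := Nat.cast_nonneg i
    push_cast
    exact ⟨div_nonneg (by linarith) (by linarith), (div_le_one (by linarith)).2 (by linarith)⟩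
  have hsub : L ⊆ (range j).image (fun i => 2 * i + 3) := by
    intro l hl
    obtain ⟨h1, h2, h3⟩ := hL l hl
    obtain ⟨k, hk⟩ := h1.odd_of_ne_two h2
    have := h1.two_le
    exact mem_image.2 ⟨k - 1, mem_range.2 (by omega), by omega⟩
  refine ⟨prod_nonneg fun l hl => (hb l (hsub hl)).1, (wallis j).trans ?_⟩
  refine pow_le_pow_left₀ (prod_nonneg fun _ _ => by positivity) (le_trans (le_of_eq ?_)
    (prod_le_prod_of_subset_of_le_one hsub (fun l hl => (hb l hl).1) fun l hl _ => (hb l hl).2)) 2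
  rw [prod_image fun x _ y _ h => by simpa using h]
  refine prod_congr rfl fun i _ => ?_
  push_cast
  congr 1 <;> ring

open Classical in
/-- a prime of the class is good, or bad for a prime of the window, or `a` has small order -/
theorem cases {a : ℤ} (ha : 2 ≤ |a|) {c u v p Q m W K : ℕ} (hc : c = 2 ∨ c = 4)
    (hu : u.Coprime v) (hcls : ∀ w : ℕ, w % v = u % v → (c * w + 1).Prime →
      ¬ ((c * w + 1 : ℕ) : ℤ) ∣ a ∧ ¬ IsSquare (a : ZMod (c * w + 1)))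
    (hp : p.Prime) (h0 : p ≡ c * u + 1 [MOD c * v])
    (hL : ∀ l : ℕ, l.Prime → ¬ l ∣ c * v → l < W → ¬ p ≡ 1 [MOD l]) (hQ : Q.Prime)
    (he : p - 1 = m * Q) (hm : m ≤ K) :
    (p.Prime ∧ ¬ (p : ℤ) ∣ a ∧ orderOf (a : ZMod p) = p - 1) ∨
      (∃ l ∈ (Icc W K).filter Nat.Prime, Bad a l p) ∨ p ∈ smallOrd a K := by
  have hp2 := hp.two_le
  have hc0 : c ≠ 0 := by omega
  obtain ⟨w, e', hw⟩ : ∃ w, p = c * w + 1 ∧ w ≡ u [MOD v] := by
    have h1 : c * u + 1 ≡ 0 + 1 [MOD c] :=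
      (Nat.modEq_zero_iff_dvd.2 (dvd_mul_right c u)).add_right 1
    obtain ⟨w, hw⟩ := (Nat.modEq_iff_dvd' hp.one_le).1
      ((h0.of_dvd (dvd_mul_right c v)).trans h1).symm
    have h2 : p = c * w + 1 := by omega
    rw [h2] at h0
    exact ⟨w, h2, Nat.ModEq.mul_left_cancel' hc0 (Nat.ModEq.add_right_cancel' 1 h0)⟩
  obtain ⟨h1, h2⟩ : ¬ (p : ℤ) ∣ a ∧ ¬ IsSquare (a : ZMod p) := by
    subst e'
    exact hcls _ hw hp
  have := Fact.mk hp
  have ha0 : (a : ZMod p) ≠ 0 := fun h => h1 ((ZMod.intCast_zmod_eq_zero_iff_dvd a p).1 h)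
  by_cases ho : orderOf (a : ZMod p) = p - 1
  · exact Or.inl ⟨hp, h1, ho⟩
  right
  obtain ⟨l, hl1, hl2, hl3⟩ : ∃ l : ℕ, l.Prime ∧ l ∣ p - 1 ∧ (a : ZMod p) ^ ((p - 1) / l) = 1 := by
    by_contra hcon
    push Not at hcon
    exact ho (orderOf_eq_of_pow_and_pow_div_prime (by omega) (ZMod.pow_card_sub_one_eq_one ha0)
      hcon)
  have hm0 : m ≠ 0 := by
    rintro rfl
    omega
  have hl5 : l ≠ 2 := by
    rintro rfl
    apply h2
    rw [ZMod.euler_criterion p ha0, ← hl3]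
    congr 1
    omega
  have hlc : ¬ l ∣ c := fun h => hl5 (by
    refine (Nat.prime_dvd_prime_iff_eq hl1 Nat.prime_two).1 ?_
    rcases hc with rfl | rfl
    · exact h
    · exact hl1.dvd_of_dvd_pow (n := 2) h)
  have hlv : ¬ l ∣ c * v := fun h => by
    have b1 := ((Nat.Prime.dvd_mul hl1).1 h).resolve_left hlc
    have b2 : l ∣ c * w := by rwa [e', Nat.add_sub_cancel] at hl2
    have b3 := ((Nat.Prime.dvd_mul hl1).1 b2).resolve_left hlc
    exact hl1.one_lt.ne' (Nat.eq_one_of_dvd_coprimes hu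
      (((hw.of_dvd b1).dvd_iff dvd_rfl).1 b3) b1)
  have hlW : W ≤ l := not_lt.1 fun h =>
    hL l hl1 hlv h ((Nat.modEq_iff_dvd' hp.one_le).2 hl2).symm
  have hl4 := hl2
  rw [he] at hl4
  rcases (Nat.Prime.dvd_mul hl1).1 hl4 with h | h
  · exact Or.inl ⟨l, mem_filter.2 ⟨mem_Icc.2
      ⟨hlW, (Nat.le_of_dvd (Nat.pos_of_ne_zero hm0) h).trans hm⟩, hl1⟩, hp, hl2, h1, hl3⟩
  · right
    obtain rfl := (Nat.prime_dvd_prime_iff_eq hl1 hQ).1 h
    rw [he, Nat.mul_div_cancel _ hl1.pos] at hl3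
    refine mem_biUnion.2 ⟨m, mem_Icc.2 ⟨by omega, hm⟩, ?_⟩
    refine Nat.mem_primeFactors.2 ⟨hp, ?_, pow_sub_one_ne ha hm0⟩
    rw [← Int.natCast_dvd, ← ZMod.intCast_zmod_eq_zero_iff_dvd]
    push_cast
    rw [hl3, sub_self]

end Vale.Agent.N016
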