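import Vale.Agent.N016.Cls
import Vale.Agent.N016.Cheb
import Vale.Agent.N016.Big

/-!
P016, positive density: from the counting statements to primitive roots.
-/

open Finset Filter

namespace Vale.Agent.N016

open Vale.Agent.P005 Vale.Agent.P005Z Vale.Agent.P016Z Vale.Agent.P016Z.Art

open Classical in
theorem dens (h1 : CLS) (h2 : CNTC) (h3 : SPLIT1) (a : ℤ) (ha1 : a ≠ -1) (ha : ¬ IsSquare a) :
    ∃ c : ℝ, 0 < c ∧ ∀ μ : ℝ, 0 < μ → μ ≤ 1 → ∀ᶠ X : ℕ in atTop, c * (μ * (X / Real.log X)) ≤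
      (((Ioc X ⌊(1 + μ) * X⌋₊).filter fun p : ℕ =>
        p.Prime ∧ ¬ (p : ℤ) ∣ a ∧ orderOf (a : ZMod p) = p - 1).card : ℝ) := by
  have ha2 : 2 ≤ |a| := by
    have b0 : a ≠ 0 := by rintro rfl; exact ha IsSquare.zero
    have b1 : a ≠ 1 := by rintro rfl; exact ha IsSquare.one
    rcases abs_cases a with h | h <;> omega
  obtain ⟨c, u, v, hc, hv, hu, hcu, hcls⟩ := h1 a ha1 ha
  obtain ⟨C, δ', hC0, hδ', hS''⟩ := h3 a ha2
  obtain ⟨δ, hδ, hδ1, hδ2⟩ : ∃ δ : ℝ, 0 < δ ∧ δ ≤ 1 / 2 ∧ δ ≤ δ' :=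
    ⟨min (1 / 2) δ', lt_min (by norm_num) hδ', min_le_left _ _, min_le_right _ _⟩
  have hS' : ∀ l : ℕ, l.Prime → |a| < l → ∀ X Y : ℕ, 2 ≤ X → X ≤ Y → Y ≤ 2 * X →
      (((Ioc X Y).filter (Bad a l)).card : ℝ) ≤
        2 * ((Y - X) / Real.log X) / (l : ℝ) ^ 2 + C * ((l : ℝ) ^ 2 * (X : ℝ) ^ (1 - δ)) := by
    intro l b1 b2 X Y hX hY hY2
    have b3 : (1 : ℝ) ≤ X := by exact_mod_cast (by omega : 1 ≤ X)
    refine (hS'' l b1 b2 X Y hX hY hY2).trans ?_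
    have b5 : 1 - δ' ≤ 1 - δ := by linarith
    gcongr
  obtain ⟨κ₀, hκ₀, hbig⟩ := big h2 (η := δ / 4) (by positivity) (by linarith)
  have hcv : c * v ≠ 0 := mul_ne_zero (by omega) hv.ne'
  have hφ : (0 : ℝ) < Nat.totient (c * v) := by
    exact_mod_cast Nat.totient_pos.2 (Nat.pos_of_ne_zero hcv)
  set κ := κ₀ / Nat.totient (c * v) with hκd
  have hκ : 0 < κ := by positivity
  obtain ⟨j, hj1, hj2⟩ : ∃ j : ℕ, 1024 / κ ^ 2 ≤ j ∧ a.natAbs ≤ j :=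
    ⟨⌈1024 / κ ^ 2⌉₊ + a.natAbs, by
      push_cast
      linarith [Nat.le_ceil (1024 / κ ^ 2), abs_nonneg (a : ℝ)], Nat.le_add_left _ _⟩
  set L := (range (2 * j + 3)).filter fun l => l.Prime ∧ ¬ l ∣ c * v with hL
  obtain ⟨M, R, m0, m1, m2, m3, m4, m5, m6⟩ := classes hcv (c * u + 1) L
    fun l hl => (mem_filter.1 hl).2
  obtain ⟨p0, p1⟩ := prod_ge j L fun l hl => by
    obtain ⟨b1, b2, b3⟩ := mem_filter.1 hl
    refine ⟨b2, ?_, mem_range.1 b1⟩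
    rintro rfl
    exact b3 (Dvd.dvd.mul_right (by omega) v)
  generalize ∏ l ∈ L, (((l : ℝ) - 2) / ((l : ℝ) - 1)) = P at m2 p0 p1
  have hj0 : (0 : ℝ) ≤ j := Nat.cast_nonneg j
  have hP : 32 / (2 * (j : ℝ) + 3) ≤ κ * P := by
    refine abs_le_of_sq_le_sq' ?_ (by positivity) |>.2
    rw [mul_pow]
    refine le_trans ?_ (mul_le_mul_of_nonneg_left p1 (sq_nonneg κ))
    rw [div_le_iff₀ (by positivity)] at hj1
    rw [div_pow, mul_one_div, div_le_div_iff₀ (by positivity) (by positivity)]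
    nlinarith [mul_le_mul_of_nonneg_left hj1 (show 0 ≤ 4 * (j : ℝ) + 6 by positivity),
      sq_nonneg κ, mul_nonneg hj0 (sq_nonneg κ)]
  have hP0 : 0 < κ * P := lt_of_lt_of_le (by positivity) hP
  have hcop : ∀ x ∈ R, x.Coprime M := fun x hx => Nat.coprime_of_dvd fun q hq hqx hqM => by
    obtain ⟨b1, b2⟩ := m6 x hx
    rcases m5 q hq hqM with h | h
    · have b3 := ((b1.of_dvd h).dvd_iff dvd_rfl).1 hqx
      rcases (Nat.Prime.dvd_mul hq).1 h with h | h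
      · exact hq.one_lt.ne' (Nat.dvd_one.1 ((Nat.dvd_add_right (h.mul_right u)).1 b3))
      · exact hq.one_lt.ne' (Nat.eq_one_of_dvd_coprimes hcu b3 h)
    · exact (b2 q h).1 hqx
  have hφM : (0 : ℝ) < Nat.totient M := by
    exact_mod_cast Nat.totient_pos.2 (Nat.pos_of_ne_zero m0)
  have hR : κ₀ * ((R.card : ℝ) / Nat.totient M) = κ * P := by
    rw [hκd, div_mul_eq_mul_div, mul_div_assoc]
    congr 1
    rw [div_eq_div_iff hφM.ne' hφ.ne', m2, mul_comm]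
  refine ⟨κ * P / 4, by positivity, fun μ μ0 μ1 => ?_⟩
  filter_upwards [hbig M R m0 m1 hcop μ μ0 μ1,
    ev2 C 1 (by positivity : 0 < δ / 4) (by positivity : 0 < μ * (κ * P / 8)),
    ev2 a.natAbs 1 (by norm_num : (0 : ℝ) < 1 / 2) (by positivity : 0 < μ * (κ * P / 8)),
    eventually_ge_atTop 2] with X e0 e2 e3 e5
  rw [hR] at e0
  have hX1 : (1 : ℝ) < X := by exact_mod_cast (by omega : 1 < X)
  have hX : (0 : ℝ) < X := by linarith
  have hY1 : X ≤ ⌊(1 + μ) * X⌋₊ := Nat.le_floor (le_mul_of_one_le_left hX.le (by linarith))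
  have hY2 : (⌊(1 + μ) * X⌋₊ : ℝ) ≤ (1 + μ) * X := Nat.floor_le (by positivity)
  generalize ⌊(1 + μ) * X⌋₊ = Y at *
  have hY3 : Y ≤ 2 * X := by
    exact_mod_cast hY2.trans (mul_le_mul_of_nonneg_right (show 1 + μ ≤ 2 by linarith) hX.le)
  set y := Real.log X with hy
  have hy0 : 0 < y := Real.log_pos hX1
  set L1 := (X : ℝ) ^ (δ / 4) with hL1
  have hL1pos : 0 < L1 := Real.rpow_pos_of_pos hX _
  set wi := (Icc (2 * j + 3) ⌊L1⌋₊).filter Nat.Prime with hwin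
  have hsub : ((Ioc X Y).filter fun p => p.Prime ∧ p % M ∈ R ∧
      ∃ m Q : ℕ, Q.Prime ∧ p - 1 = m * Q ∧ m ≤ ⌊L1⌋₊) ⊆
      ((Ioc X Y).filter fun p : ℕ =>
        p.Prime ∧ ¬ (p : ℤ) ∣ a ∧ orderOf (a : ZMod p) = p - 1) ∪
        (wi.biUnion (fun l => (Ioc X Y).filter (Bad a l)) ∪ smallOrd a ⌊L1⌋₊) := by
    intro p hp
    obtain ⟨hp1, hp2, hp3, m, Q, hQ, he, hm⟩ := mem_filter.1 hp
    obtain ⟨b1, b2⟩ := m6 _ hp3
    have b3 := (Nat.mod_modEq p M).symm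
    rcases cases (W := 2 * j + 3) ha2 hc hu hcls hp2 ((b3.of_dvd m3).trans b1)
      (fun l l1 l2 l3 h => by
        have l4 : l ∈ L := mem_filter.2 ⟨mem_range.2 l3, l1, l2⟩
        exact (b2 l l4).2 ((b3.of_dvd (m4 l l4)).symm.trans h)) hQ he hm with h | ⟨l, hl, h⟩ | h
    · exact mem_union_left _ (mem_filter.2 ⟨hp1, h⟩)
    · exact mem_union_right _ (mem_union_left _ (mem_biUnion.2 ⟨l, hl, mem_filter.2 ⟨hp1, h⟩⟩))
    · exact mem_union_right _ (mem_union_right _ h)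
  have hcard := (card_le_card hsub).trans ((card_union_le _ _).trans
    (Nat.add_le_add_left ((card_union_le _ _).trans
      (Nat.add_le_add card_biUnion_le (card_smallOrd ha2 _))) _))
  have hcard' := (Nat.cast_le (α := ℝ)).2 hcard
  rw [Nat.cast_add, Nat.cast_add, Nat.cast_sum, Nat.cast_mul, Nat.cast_mul] at hcard'
  have hXδ : 0 ≤ (X : ℝ) ^ (1 - δ) := Real.rpow_nonneg hX.le _
  have hfl : (⌊L1⌋₊ : ℝ) ≤ L1 := Nat.floor_le hL1pos.le
  have hbad : ∑ l ∈ wi, (((Ioc X Y).filter (Bad a l)).card : ℝ) ≤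
      2 * (μ * (X / y)) * (2 / (2 * (j : ℝ) + 3)) + L1 * (C * (L1 ^ 2 * (X : ℝ) ^ (1 - δ))) := by
    have s1 : ∀ l ∈ wi, (((Ioc X Y).filter (Bad a l)).card : ℝ) ≤
        2 * (μ * (X / y)) * (1 / (l : ℝ) ^ 2) + C * (L1 ^ 2 * (X : ℝ) ^ (1 - δ)) := by
      intro l hl
      obtain ⟨hl1, hl2⟩ := mem_filter.1 hl
      obtain ⟨hl3, hl4⟩ := mem_Icc.1 hl1
      have b2 : (l : ℝ) ≤ L1 := (Nat.le_floor_iff hL1pos.le).1 hl4
      have b3 : |a| < l := by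
        rw [← Int.natCast_natAbs]
        exact_mod_cast (by omega : a.natAbs < l)
      refine (hS' l hl2 b3 X Y e5 hY1 hY3).trans ?_
      rw [mul_one_div, ← mul_div_assoc μ]
      gcongr
      linarith
    refine (sum_le_sum s1).trans ?_
    rw [sum_add_distrib, ← mul_sum, sum_const, nsmul_eq_mul]
    refine add_le_add (mul_le_mul_of_nonneg_left ?_ (by positivity))
      (mul_le_mul_of_nonneg_right ?_ (by positivity))
    · have b1 := sum_inv_sq_win (L := ((2 * j + 3 : ℕ) : ℝ)) (by push_cast; linarith) ⌊L1⌋₊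
      rw [Nat.ceil_natCast] at b1
      push_cast at b1
      exact le_trans (sum_le_sum_of_subset_of_nonneg (filter_subset _ _)
        fun l _ _ => by positivity) b1
    · have b2 : wi.card ≤ ⌊L1⌋₊ := by
        refine (card_filter_le _ _).trans ?_
        rw [Nat.card_Icc]
        omega
      exact ((Nat.cast_le (α := ℝ)).2 b2).trans hfl
  have t1 : 2 * (μ * (X / y)) * (2 / (2 * (j : ℝ) + 3)) ≤ μ * (X / y) * (κ * P / 8) := by
    have b1 : 2 * (μ * (X / y)) * (2 / (2 * (j : ℝ) + 3)) =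
        μ * (X / y) * (32 / (2 * (j : ℝ) + 3) / 8) := by
      ring
    rw [b1]
    gcongr
  have t0 : 0 ≤ μ * (X / y) * (κ * P) := by positivity
  have t2 : L1 * (C * (L1 ^ 2 * (X : ℝ) ^ (1 - δ))) ≤ X / y * (μ * (κ * P / 8)) := by
    have b1 : L1 * (C * (L1 ^ 2 * (X : ℝ) ^ (1 - δ))) =
        X / y * (C * (y ^ 1 * (X : ℝ) ^ (-(δ / 4)))) := by
      have b2 : L1 ^ 3 * (X : ℝ) ^ (1 - δ) = X * (X : ℝ) ^ (-(δ / 4)) := by
        rw [hL1, ← Real.rpow_mul_natCast hX.le, ← Real.rpow_add hX,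
          ← Real.rpow_one_add' hX.le (by linarith)]
        congr 1
        push_cast
        ring
      calc _ = C * (L1 ^ 3 * (X : ℝ) ^ (1 - δ)) := by ring
        _ = _ := by rw [b2]; field_simp
    rw [b1]
    exact mul_le_mul_of_nonneg_left e2 (by positivity)
  have t3 : (⌊L1⌋₊ : ℝ) * ((a.natAbs : ℝ) * ⌊L1⌋₊) ≤ X / y * (μ * (κ * P / 8)) := by
    have b1 : L1 * L1 ≤ X * (X : ℝ) ^ (-(1 / 2) : ℝ) := by
      rw [hL1, ← Real.rpow_add hX, ← Real.rpow_one_add' hX.le (by norm_num)]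
      exact Real.rpow_le_rpow_of_exponent_le hX1.le (by linarith)
    calc _ ≤ L1 * ((a.natAbs : ℝ) * L1) := by gcongr
      _ = a.natAbs * (L1 * L1) := by ring
      _ ≤ a.natAbs * (X * (X : ℝ) ^ (-(1 / 2) : ℝ)) := by gcongr
      _ = X / y * (a.natAbs * (y ^ 1 * (X : ℝ) ^ (-(1 / 2) : ℝ))) := by field_simp
      _ ≤ _ := mul_le_mul_of_nonneg_left e3 (by positivity)
  linarith

end Vale.Agent.N016
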