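import Vale.Agent.N016.Defs
import Vale.Agent.P016Z.Pr.Grp

/-!
P016, positive density: one group of primes against one dyadic range of rough numbers.
-/

open Finset Filter

namespace Vale.Agent.N016

open Vale.Agent.P005 Vale.Agent.P005Z Vale.Agent.P005Z.Grp Vale.Agent.P016Z

namespace GrpC

theorem bet_part {k : ℕ} {a b : Fin k → ℝ} {M ρ r N A B : ℕ} {G : Finset ℕ} {CF Z : ℝ}
    {β : ℕ → ℝ} (hM : 1 ≤ M) (hG : G ⊆ prm A (2 * A)) (hB : 1 ≤ B) (hN : 4 * (A * B) ≤ N ^ 2)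
    (hC : 1 ≤ CF) (hF : ∀ n : ℕ, 1 ≤ n → n ≤ N ^ 2 → (FF a b N n : ℝ) ≤ CF)
    (h : ∀ q ∈ D4.tup a b N, ∀ t ∈ MT r (ell N), Nat.Coprime (∏ i, q i) (md t))
    (hT : ∀ (c : ℕ) (α g : ℕ → ℂ), (∀ n, ‖α n‖ ≤ 1) → (∀ n, ‖g n‖ ≤ 1) →
      ‖∑ t ∈ MT r (ell N), ∑ z ∈ (prs A B).filter (fun z => md t ∣ z.1 * z.2 - 1),
        α z.1 * (if c * (z.2 % M) ≡ ρ [MOD M] then (β z.2 : ℂ) else 0) *
          g ((z.1 * z.2 - 1) / md t)‖ ≤ Z) :
    ∑ p ∈ G, ∑ m ∈ Ico B (2 * B), β m * vw a b M ρ r N (p * m - 1) ≤ M * CF * Z := by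
  rw [← sum_fiberwise_of_maps_to (t := range M) (g := fun p => p % M)
    fun b _ => mem_range.2 (Nat.mod_lt _ hM)]
  refine (sum_le_card_nsmul _ _ (CF * Z) fun c _ => ?_).trans
    (by rw [card_range, nsmul_eq_mul, mul_assoc])
  have hG' : G.filter (fun p => p % M = c) ⊆ prm A (2 * A) := (filter_subset _ _).trans hG
  have e : ∀ (R : Prop) [Decidable R] (x : ℝ), (if R then (x : ℂ) else 0) =
      ((if R then x else 0 : ℝ) : ℂ) := fun R _ x => by split_ifs <;> simp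
  have H := Grp.bet_part (β := fun m => if c * (m % M) ≡ ρ [MOD M] then β m else 0) hG' hB hN hC
    hF h fun α g hα hg => by simpa only [e] using hT c α g hα hg
  refine le_trans (le_of_eq ?_) H
  refine sum_congr rfl fun p hp => sum_congr rfl fun m hm => ?_
  have hp' := hG' hp
  rw [prm, mem_filter] at hp'
  have h1 : 1 ≤ p * m := Nat.mul_pos hp'.2.pos (hB.trans (mem_Ico.1 hm).1)
  have h2 : c * (m % M) ≡ p * m [MOD M] := by
    rw [← (mem_filter.1 hp).2]
    exact (Nat.mod_modEq p M).mul (Nat.mod_modEq m M)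
  rw [vw_pred _ _ _ _ _ _ h1]
  by_cases h3 : p * m ≡ ρ [MOD M]
  · rw [if_pos h3, if_pos (h2.trans h3)]
  · rw [if_neg h3, if_neg fun h4 => h3 (h2.symm.trans h4), mul_zero, zero_mul]

theorem inv_prod {d : ℕ} (hd : Squarefree d) : ∏ p ∈ d.primeFactors, 1 / (p : ℝ) = 1 / (d : ℝ) := by
  rw [prod_div_distrib, prod_const_one, ← Nat.cast_prod, Nat.prod_primeFactors_of_squarefree hd]

theorem g_bd {w : ℕ} {P : Finset ℕ} (hP : P ⊆ prm 0 w) : ∀ p ∈ P, 0 ≤ 1 / (p : ℝ) ∧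
    1 / (p : ℝ) ≤ 1 / 2 ∧ 1 / (p : ℝ) ≤ 2 / (p : ℝ) := by
  intro p hp
  have h3 : (2 : ℝ) ≤ p := by exact_mod_cast (mem_filter.1 (hP hp)).2.two_le
  exact ⟨by positivity, one_div_le_one_div_of_le two_pos h3, by gcongr; norm_num⟩

/-- the two conditions as one residue class -/
theorem crt_sum {k : ℕ} (a b : Fin k → ℝ) {M ρ r N d p s s' : ℕ} (hd : d.Coprime M)
    (hp : p.Coprime d) (hp0 : 0 < p) (hs : 1 ≤ s) :
    ∑ m ∈ (Ico s s').filter (fun m => d ∣ m), vw a b M ρ r N (p * m - 1) =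
      ∑ m ∈ (Ico s s').filter (fun m => p * m ≡ (Nat.chineseRemainder hd 0 ρ : ℕ) [MOD d * M]),
        vv a b r N (p * m - 1) := by
  rw [sum_filter, sum_filter]
  refine sum_congr rfl fun m hm => ?_
  have h1 : 1 ≤ p * m := Nat.mul_pos hp0 (hs.trans (mem_Ico.1 hm).1)
  obtain ⟨c1, c2⟩ := (Nat.chineseRemainder hd 0 ρ).2
  rw [vw_pred _ _ _ _ _ _ h1, ← ite_and]
  refine if_congr ?_ rfl rfl
  rw [← Nat.modEq_and_modEq_iff_modEq_mul hd]
  constructor
  · rintro ⟨e1, e2⟩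
    exact ⟨(Nat.modEq_zero_iff_dvd.2 (e1.mul_left p)).trans c1.symm, e2.trans c2.symm⟩
  · rintro ⟨e1, e2⟩
    exact ⟨hp.symm.dvd_of_dvd_mul_left (Nat.modEq_zero_iff_dvd.1 (e1.trans c1)), e2.trans c2⟩

end GrpC

open GrpC in
theorem grpc (h1 : FFB) (h2 : VVB) (h3 : FLC) (h4 : Pr.FLG) (h5 : TIIW) (h6 : RSW) (h7 : TIC) :
    GRPC := by
  intro k a b hab M ρ hM δ hδ C
  obtain ⟨CF, hCF, e1⟩ := h1 _ a b hab
  obtain ⟨r, K, e5⟩ := h5 δ hδ (C + 1)
  obtain ⟨c0, hc, e7⟩ := h7 k a b hab (δ / 2) (half_pos hδ) r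
  obtain ⟨b1, h3⟩ := h3
  obtain ⟨b2, h4⟩ := h4
  obtain ⟨i0, -, hi0⟩ := exists_min_image univ a univ_nonempty
  obtain ⟨c1, c10, c11, c12⟩ : ∃ c1 : ℝ, 0 < c1 ∧ c1 ≤ c0 / 2 ∧ c1 ≤ 1 / 4 :=
    ⟨_, lt_min (half_pos hc) (by norm_num), min_le_left _ _, min_le_right _ _⟩
  have hM' : (1 : ℝ) ≤ M := by exact_mod_cast hM
  have hφ : (0 : ℝ) < Nat.totient M := by exact_mod_cast Nat.totient_pos.2 hM
  have hMC : 1 ≤ M * CF := one_le_mul_of_one_le_of_one_le hM' hCF
  have hMC' : (M : ℝ) ≤ M * CF := le_mul_of_one_le_right (by linarith) hCF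
  refine ⟨r, ?_⟩
  filter_upwards [e1, e5, e7, h6 δ hδ (K + 1), h2 r _ (half_pos (hab.pos i0)),
    ev_w (K + 1) (max b1 b2) c10, ev_pow (K + 1 + 1) 1 hδ, ev_pow (C + (K + 1) + 2) (12 * CF) c10,
    ev_pow 0 M c10, tL.eventually_ge_atTop (3 + 2 * (M * CF)),
    eventually_ge_atTop 4] with N e1 e5 e7 e6 e2 ew ep1 ep2 ep3 eL eN
  intro A B u' y G hG hA hB hAB hy hu
  rw [pow_zero, mul_one] at ep3
  have hN1 : (1 : ℝ) < N := by exact_mod_cast (by omega : 1 < N)
  have hN0 : (0 : ℝ) < N := by linarith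
  have hL1 : 1 ≤ Real.log N := by linarith
  have hδ1 : (1 : ℝ) ≤ (N : ℝ) ^ δ := Real.one_le_rpow hN1.le hδ.le
  have hA1 : (1 : ℝ) ≤ A := hδ1.trans hA
  have hBδ : (N : ℝ) ^ δ ≤ B := le_trans (le_mul_of_one_le_left (by positivity) hA1) hB
  have hB1 : 1 ≤ B := by exact_mod_cast hδ1.trans hBδ
  have hBN : B ≤ N := by
    exact_mod_cast le_trans (le_mul_of_one_le_left (Nat.cast_nonneg B) hA1) hAB
  have hABn : A * B ≤ N := by exact_mod_cast hAB
  rw [one_mul] at ep1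
  have hwy : parW N (K + 1) ≤ y := by exact_mod_cast ew.1.trans (ep1.trans hy)
  have hwA : parW N (K + 1) ≤ A := by exact_mod_cast ew.1.trans (ep1.trans hA)
  have hMw : M < parW N (K + 1) := by
    have a1 : (M : ℝ) ≤ Real.log N ^ (K + 1) :=
      le_trans (by linarith) (le_self_pow₀ hL1 (Nat.add_one_ne_zero K))
    have a2 : M ≤ ⌈Real.log N ^ (K + 1)⌉₊ := by exact_mod_cast a1.trans (Nat.le_ceil _)
    unfold parW
    omega
  have hV : 0 ≤ VV r (ell N) := zero_le_one.trans e2.1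
  have θ0 : 0 ≤ thM a b M N * VV r (ell N) := mul_nonneg (thM_nonneg _ _ _ _) hV
  have θ1 : thM a b M N * VV r (ell N) ≤ CF * Real.log N :=
    mul_le_mul ((thM_le a b hM N).trans e1.1) e2.2.1 hV (by linarith)
  have D0 : 0 ≤ thQ a b N * VV r (ell N) / M :=
    div_nonneg (mul_nonneg (thQ_nonneg _ _ _) hV) (by linarith)
  have hS : thQ a b N * VV r (ell N) / M * ((M : ℝ) / Nat.totient M) ≤
      thM a b M N * VV r (ell N) := by
    refine le_of_eq ?_
    rw [thM]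
    field_simp
  generalize thM a b M N * VV r (ell N) = θ at θ0 θ1 hS ⊢
  generalize thQ a b N * VV r (ell N) = θ' at D0 hS e7
  have P1 := GrpC.bet_part (ρ := ρ) (β := bet y (parW N (K + 1)) B (parH N (K + 1) B) u') hM hG hB1
    (by rw [sq]; exact Nat.mul_le_mul eN hABn) hCF e1.2
    (cop hN1 (fun i => by linarith [hi0 i (mem_univ i), hab.pos i0]) e2.2.2.2.2.1)
    fun c α g hα hg =>
      e5 A B hA hB hAB α (fun m => if c * (m % M) ≡ ρ [MOD M] then
        (bet y (parW N (K + 1)) B (parH N (K + 1) B) u' m : ℂ) else 0) g hα (fun n => by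
        split_ifs
        · rw [Complex.norm_real]; exact bet_le hwy B _ u' n
        · simp) hg
        (Pr.GrpA.sw_cls (e6 y B u' hy hBδ hBN hu) hM (by linarith) fun j => c * j ≡ ρ [MOD M])
  have hx := exp_le (show 3 ≤ Real.log N by linarith) (max b1 b2)
  have hWc := ew.2.2
  have hw2 := ew.2.1
  have w100 : 100 ≤ parW N (K + 1) := by unfold parW; omega
  have hb1 : b1 ≤ max b1 b2 + ⌈3 * Real.log (Real.log N)⌉₊ :=
    (le_max_left _ _).trans (Nat.le_add_right _ _)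
  have hb2 : b2 ≤ max b1 b2 + ⌈3 * Real.log (Real.log N)⌉₊ :=
    (le_max_right _ _).trans (Nat.le_add_right _ _)
  generalize max b1 b2 + ⌈3 * Real.log (Real.log N)⌉₊ = bb at hx hWc hb1 hb2
  have h0 : 0 < parH N (K + 1) B := by unfold parH; omega
  have hnb := nb_le (K := K + 1) (B := B) hL1
  generalize parH N (K + 1) B = h at h0 hnb P1
  generalize parW N (K + 1) = w at hwy hwA hMw P1 hWc hw2 w100
  obtain ⟨D, lam, ll, hD, hup, hsum, -⟩ := h4 bb hb2 w w100
    ((prm 0 w).filter (fun p => ¬ p ∣ M)) (filter_subset _ _)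
    (fun p => 1 / (p : ℝ)) (g_bd (filter_subset _ _))
  have hAs := A_le hN0 (Nat.cast_nonneg A) hB hAB
  have hGc : (G.card : ℝ) ≤ (N : ℝ) ^ (1 - 2 * c1) := by
    have b1 : G.card ≤ A := by
      have := (card_le_card hG).trans (card_filter_le _ _)
      rw [Nat.card_Ico] at this
      omega
    exact le_trans (by exact_mod_cast b1)
      (hAs.trans (Real.rpow_le_rpow_of_exponent_le hN1.le (by linarith)))
  have P5 := err1 C hMC (show 2 * (M * CF) ≤ Real.log N by linarith) hAB hN0.le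
  have P6 := err2 C (K + 1) hCF hL1 hN1.le hnb θ0 θ1 (Nat.cast_nonneg _) hGc
    (by positivity) hWc c11 ep2
  refine le_trans (model (G := G) (v := fun p m => vw a b M ρ r N (p * m - 1)) (h := h)
    (M := (1 + 1 / Real.log N ^ 2) * θ)
    (E := 2 * θ * G.card * (w : ℝ) ^ (4 * bb + 10) + (w : ℝ) ^ (4 * bb + 10) * (N : ℝ) ^ (1 - c0))
    h0 hu hwy (by positivity) fun s s' hs hs' => ?_) (by linarith only [P1, P5, P6])
  rcases le_or_gt s s' with hss | hss
  · refine Pr.GrpA.blk (D := D) (lam := lam) (den := fun d => (d : ℝ))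
      (v := fun p m => vw a b M ρ r N (p * m - 1)) (x := Real.exp (-(bb : ℝ)))
      (Q := ∏ p ∈ prm 0 w, (1 - 1 / (p : ℝ))) (fun p m => vw_nonneg _ _ _ _ _ _ _) θ0 D0 hS hss
      (Real.exp_pos _).le hx ?_ (Pr.GrpA.Q_pos w).le (by positivity) (by positivity)
      (fun d hd => ⟨Nat.pos_of_ne_zero (hD d hd).1.ne_zero, (hD d hd).2.1, (hD d hd).2.2.2.1⟩)
      (fun m => le_trans ?_ (hup m).2) ?_ (fun d hd => ?_) ?_
    · rw [div_le_one (by positivity)]
      exact one_le_pow₀ hL1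
    · split_ifs with k1 k2
      · exact le_rfl
      · exact absurd (fun p hp => k1 p (mem_filter.1 hp).1) k2
      · exact zero_le_one
      · exact le_rfl
    · rw [← prod_cop hM hMw]
      refine le_trans (le_of_eq (sum_congr rfl fun d hd => ?_)) hsum
      rw [inv_prod (hD d hd).1, mul_one_div]
    · have hd0 := (hD d hd).1.ne_zero
      have hP : ∀ p : ℕ, p.Prime → p ∣ d → p < w ∧ ¬ p ∣ M := fun p hp hpd => by
        have := mem_filter.1 ((hD d hd).2.2.1 (Nat.mem_primeFactors.2 ⟨hp, hpd, hd0⟩))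
        exact ⟨(mem_Ico.1 (mem_filter.1 this.1).1).2, this.2⟩
      have hdM : d.Coprime M := Nat.coprime_of_dvd fun p hp hpd => (hP p hp hpd).2
      have e : ∀ p ∈ G, _ := fun p hp => by
        have hp' := mem_filter.1 (hG hp)
        exact crt_sum a b (ρ := ρ) (r := r) (N := N) (s' := s') hdM
          ((Nat.Prime.coprime_iff_not_dvd hp'.2).2 fun hpd =>
            absurd ((hP p hp'.2 hpd).1.trans_le (hwA.trans (mem_Ico.1 hp'.1).1)) (lt_irrefl p))
          hp'.2.pos (hB1.trans hs)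
      have e' : (G.card : ℝ) * (((s' : ℝ) - s) / d) * (θ' / M) =
          (G.card : ℝ) * (((s' : ℝ) - s) / ((d * M : ℕ) : ℝ)) * θ' := by
        push_cast
        ring
      rw [sum_congr rfl e, e']
      refine e7 A s s' (d * M) _ G hG (le_trans ?_ hA) hAs (hB1.trans hs) hss ?_
        (Nat.mul_pos (Nat.pos_of_ne_zero hd0) hM) ?_ fun p hp hpd => ?_
      · exact Real.rpow_le_rpow_of_exponent_le hN1.le (by linarith)
      · refine (Nat.mul_le_mul_left A (hs'.trans hu)).trans ?_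
        rw [mul_left_comm]
        exact Nat.mul_le_mul_left 2 hABn
      · push_cast
        calc (d : ℝ) * M ≤ (N : ℝ) ^ c1 * (N : ℝ) ^ c1 :=
              mul_le_mul ((hD d hd).2.1.trans hWc) ep3 (by positivity) (by positivity)
          _ = (N : ℝ) ^ (c1 + c1) := (Real.rpow_add hN0 _ _).symm
          _ ≤ _ := Real.rpow_le_rpow_of_exponent_le hN1.le (by linarith)
      · rcases (Nat.Prime.dvd_mul hp).1 hpd with h' | h'
        · exact (hP p hp h').1.trans_le hw2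
        · exact ((Nat.le_of_dvd hM h').trans_lt hMw).trans_le hw2
    · have := h3 bb hb1 _ w100 (prm 0 w) Subset.rfl (fun _ => 0) s (s' - s)
      rw [Nat.add_sub_cancel' hss, Nat.cast_sub hss] at this
      have e : rgs w s s' = (Ico s s').filter (fun m => ∀ p ∈ prm 0 w, m % p ≠ 0 % p) := by
        refine filter_congr fun m _ => ?_
        simp only [Rgh, Nat.zero_mod, ne_eq, Nat.dvd_iff_mod_eq_zero]
      rw [e]
      convert this
  · have : rgs w s s' = ∅ := by rw [rgs, Ico_eq_empty_of_le hss.le, filter_empty]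
    rw [this]
    simp only [sum_empty, sum_const_zero, card_empty, Nat.cast_zero, mul_zero, zero_add]
    positivity

end Vale.Agent.N016
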