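import Vale.Agent.N016.TI2
import Vale.Agent.N016.Defs

/-!
P016, positive density: the Type I estimate in a residue class.
-/

open Finset Filter

namespace Vale.Agent.N016

open Vale.Agent.P005 Vale.Agent.P005Z Vale.Agent.P005Z.TIa

theorem tic (h1 : FFB) (h2 : VVB) : TIC := by
  intro k a b hab δ hδ r
  have hb0 : ∀ i, 0 ≤ b i := fun i => (hab.pos i).le.trans (hab.le i)
  have hsum := hab.sum
  have hsplit : ∑ i, b i = b 0 + ∑ i, Fin.tail b i := Fin.sum_univ_succ b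
  have htail : 0 ≤ ∑ i, Fin.tail b i := sum_nonneg fun i _ => hb0 _
  have hab' : HB (Fin.tail a) (Fin.tail b) :=
    ⟨fun i => hab.pos _, fun i => hab.le _, by linarith [hb0 0]⟩
  obtain ⟨c, hc, hc1, hc2, hc3⟩ := exists_c hab hδ
  obtain ⟨C, hC, hF⟩ := h1 _ a b hab
  obtain ⟨C', hC', hF'⟩ := h1 _ _ _ hab'
  refine ⟨c, hc, ?_⟩
  filter_upwards [hF, hF', h2 r c hc, ev_big (K := 2 * (1200 * C' + 20 * C)) (by positivity) hc,
    eventually_ge_atTop 13] with N hFN hFN' hV hb hN13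
  intro A u u' d ρ G hG hA1 hA2 hu1 huu hAu hd1 hd2 hd3
  obtain ⟨-, hV2, -, hV4, hV5, -⟩ := hV
  have hN0 : (0 : ℝ) < N := by exact_mod_cast (by omega : 0 < N)
  have hN1 : (1 : ℝ) ≤ N := by exact_mod_cast (by omega : 1 ≤ N)
  have hL : 1 ≤ Real.log N := by
    rw [Real.le_log_iff_exp_le hN0]
    have : (13 : ℝ) ≤ N := by exact_mod_cast hN13
    linarith only [Real.exp_one_lt_d9, this]
  have hpow : ∀ (n : ℕ) (s : ℝ), n * c ≤ s → ((N : ℝ) ^ c) ^ n ≤ (N : ℝ) ^ s := fun n s h => by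
    rw [← Real.rpow_mul_natCast hN0.le]
    exact Real.rpow_le_rpow_of_exponent_le hN1 (by linarith only [h])
  have hdiv : ∀ (n : ℕ) (s : ℝ), s + n * c ≤ 1 → (N : ℝ) ^ s ≤ N / ((N : ℝ) ^ c) ^ n :=
    fun n s h => by
      rw [le_div_iff₀ (by positivity), ← Real.rpow_mul_natCast hN0.le, ← Real.rpow_add hN0]
      exact (Real.rpow_le_rpow_of_exponent_le hN1 (by linarith only [h])).trans
        (Real.rpow_one _).le
  have hfin : (N : ℝ) ^ (1 - c) = N / (N : ℝ) ^ c := by rw [Real.rpow_sub hN0, Real.rpow_one]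
  have hA10 : ((N : ℝ) ^ c) ^ 10 ≤ A :=
    (hpow 10 δ (by push_cast; linarith only [hc1])).trans hA1
  have hAsq : (A : ℝ) ^ 2 ≤ N / ((N : ℝ) ^ c) ^ 20 := by
    refine le_trans ?_ (hdiv 20 (1 - 2 * δ) (by push_cast; linarith only [hc1]))
    calc (A : ℝ) ^ 2 ≤ ((N : ℝ) ^ (1 / 2 - δ)) ^ 2 := by gcongr
      _ = _ := by rw [← Real.rpow_mul_natCast hN0.le]; congr 1; push_cast; ring
  have hQ20 : ∀ i, ∀ q ∈ D4.prI ((N : ℝ) ^ a i) ((N : ℝ) ^ b i),
      q.Prime ∧ ((N : ℝ) ^ c) ^ 20 ≤ q ∧ (q : ℝ) ≤ (N : ℝ) ^ b i := fun i q hq => by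
    rw [D4.mem_prI (by positivity)] at hq
    exact ⟨hq.2.2, (hpow 20 (a i) (by push_cast; exact hc3 i)).trans hq.1, hq.2.1⟩
  have hb20 : (N : ℝ) ^ b 0 ≤ N / ((N : ℝ) ^ c) ^ 20 :=
    hdiv 20 _ (by push_cast; linarith only [hc2, hsplit, htail])
  have hcard : ((D4.prI ((N : ℝ) ^ a 0) ((N : ℝ) ^ b 0)).card : ℝ) *
      ((D4.tup (Fin.tail a) (Fin.tail b) N ×ˢ MT r (ell N)).card : ℝ) ≤
        N / ((N : ℝ) ^ c) ^ 19 := by
    rw [card_product]
    push_cast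
    have e1 := D4.card_prI_le ((N : ℝ) ^ a 0) ((N : ℝ) ^ b 0) (by positivity)
    have e2 := card_tup (Fin.tail a) (Fin.tail b) (by omega : 0 < N)
    calc _ ≤ (N : ℝ) ^ b 0 * ((N : ℝ) ^ (∑ i, Fin.tail b i) * (N : ℝ) ^ c) := by gcongr
      _ = (N : ℝ) ^ (∑ i, b i + c) := by
        rw [← Real.rpow_add hN0, ← Real.rpow_add hN0, hsplit, add_assoc]
      _ ≤ _ := hdiv 19 _ (by push_cast; linarith only [hc2])
  rw [hfin]
  generalize (N : ℝ) ^ c = x at *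
  have hx : 2 ≤ x := by
    have e1 : (1 : ℝ) ≤ Real.log N ^ 2 := one_le_pow₀ hL
    nlinarith only [e1, hb, hC, hC']
  have hH := hyp_of hN13 hx hC' hG hA10 hAsq hd1 hd2 hd3 hQ20 hb20 hV4 hFN'.2
  have hvv : ∀ n, vv a b r N n = _ := fun n => vv_eq a b r N n fun q hq t ht =>
    Nat.Coprime.prod_left fun i _ => by
      obtain ⟨q1, q2, -⟩ := hQ20 i _ (Fintype.mem_piFinset.1 hq i)
      exact cop_of hx q1 (by norm_num) q2 (md_cop ht hd3).1 (hV5 t ht)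
  have hθ := sum_inv_le (N := N) fun q hq => ⟨(hH.hQ q hq).1.pos, (hH.hQ q hq).2.1⟩
  have hW0 : 0 ≤ thQ a b N := sum_nonneg fun _ _ => by positivity
  have hW1 : 0 ≤ VV r (ell N) := sum_nonneg fun _ _ => by positivity
  have hnum := numer hN0.le hx hL hC hC' hA10 (Nat.cast_nonneg d) hd2
    (sum_nonneg fun _ _ => by positivity) hθ (mul_nonneg hW0 hW1)
    (mul_le_mul hFN.1 hV2 hW1 (by linarith only [hC])) hcard hb
  have k1 := TIc.core hH ρ hAu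
  have k2 := TIc.core hH ρ ((Nat.mul_le_mul_left A huu).trans hAu)
  simp only [← hvv, ← th_eq] at k1 k2
  unfold EE at k1 k2
  have hs : ∑ p ∈ G, ∑ m ∈ (Ico u u').filter (fun m => p * m ≡ ρ [MOD d]), vv a b r N (p * m - 1) =
      ∑ p ∈ G, ∑ m ∈ (Ico 1 u').filter (fun m => p * m ≡ ρ [MOD d]), vv a b r N (p * m - 1) -
        ∑ p ∈ G, ∑ m ∈ (Ico 1 u).filter (fun m => p * m ≡ ρ [MOD d]), vv a b r N (p * m - 1) := by
    rw [← sum_sub_distrib]
    refine sum_congr rfl fun p _ => ?_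
    simp only [sum_filter]
    rw [← sum_Ico_consecutive _ hu1 huu]
    ring
  rw [hs, sub_div, abs_le]
  rw [abs_le] at k1 k2
  constructor <;> linarith only [k1.1, k1.2, k2.1, k2.2, hnum]

end Vale.Agent.N016
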