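import Vale.Agent.N016.TI1

/-!
P016, positive density: the Type I estimate in a residue class, the abstract estimate.
-/

open Finset

namespace Vale.Agent.N016.TIc

open Vale.Agent.P005 Vale.Agent.P005Z
open Vale.Agent.P005Z.TIa hiding count_two main_one bil bil' pieces TT TT_eq card_le_up
  card_le_down TT_split SS

variable {ι : Type}

/-- the count for one pair of primes, `k < K` -/
noncomputable def TT (Js : Finset ι) (D : ι → ℕ) (d ρ p q K : ℕ) : ℝ :=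
  ∑ k ∈ range K, gam Js D k * (if q * k + 1 ≡ ρ [MOD d] then 1 else 0) * (if p ∣ q * k + 1 then 1 else 0)

theorem TT_eq (Js : Finset ι) (D : ι → ℕ) (d ρ p q K : ℕ) : TT Js D d ρ p q K =
    ∑ j ∈ Js, (((range K).filter
      (fun k => ((k ≠ 0 ∧ D j ∣ k) ∧ q * k + 1 ≡ ρ [MOD d]) ∧ p ∣ q * k + 1)).card : ℝ) := by
  simp only [TT, gam, sum_mul]
  rw [sum_comm]
  refine sum_congr rfl fun j _ => ?_
  rw [card_filter]
  push_cast
  refine sum_congr rfl fun k _ => ?_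
  by_cases h1 : k ≠ 0 ∧ D j ∣ k <;> by_cases h2 : q * k + 1 ≡ ρ [MOD d] <;> by_cases h3 : p ∣ q * k + 1 <;>
    simp [h1, h2, h3]

theorem card_le_up {p q d ρ u D K : ℕ} (hp : p.Prime)
    (hK : ∀ k, q * k + 1 < p * u → k < K) :
    (((Ico 1 u).filter (fun m => p * m ≡ ρ [MOD d])).filter (fun m => q * D ∣ p * m - 1)).card ≤
      ((range K).filter (fun k => ((k ≠ 0 ∧ D ∣ k) ∧ q * k + 1 ≡ ρ [MOD d]) ∧ p ∣ q * k + 1)).card := by
  have h0 : ∀ m ∈ ((Ico 1 u).filter (fun m => p * m ≡ ρ [MOD d])).filter (fun m => q * D ∣ p * m - 1),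
      q * ((p * m - 1) / q) + 1 = p * m ∧ 2 ≤ p * m := fun m hm => by
    simp only [mem_filter, mem_Ico] at hm
    have h1 : 2 ≤ p * m := hp.two_le.trans (Nat.le_mul_of_pos_right p hm.1.1.1)
    rw [Nat.mul_div_cancel' ((dvd_mul_right q D).trans hm.2)]
    omega
  refine card_le_card_of_injOn (fun m => (p * m - 1) / q) (fun m hm => ?_) (fun m hm m' hm' h => ?_)
  · obtain ⟨h1, h2⟩ := h0 m hm
    simp only [coe_filter, mem_filter, mem_Ico, Set.mem_ofPred_eq, mem_range] at hm ⊢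
    refine ⟨hK _ ?_, ⟨⟨fun h => ?_, ?_⟩, ?_⟩, ?_⟩
    · rw [h1]; exact Nat.mul_lt_mul_of_pos_left hm.1.1.2 hp.pos
    · rw [h] at h1; omega
    · exact Nat.dvd_div_of_mul_dvd hm.2
    · rw [h1]; exact hm.1.2
    · rw [h1]; exact dvd_mul_right p m
  · have h1 := (h0 m hm).1
    have h2 := (h0 m' hm').1
    simp only at h
    rw [h, h2] at h1
    exact (Nat.eq_of_mul_eq_mul_left hp.pos h1).symm

theorem card_le_down {p q d ρ u D K : ℕ} (hq : 0 < q)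
    (hK : ∀ k, k < K → q * k + 1 < p * u) :
    ((range K).filter (fun k => ((k ≠ 0 ∧ D ∣ k) ∧ q * k + 1 ≡ ρ [MOD d]) ∧ p ∣ q * k + 1)).card ≤
      (((Ico 1 u).filter (fun m => p * m ≡ ρ [MOD d])).filter (fun m => q * D ∣ p * m - 1)).card := by
  refine card_le_card_of_injOn (fun k => (q * k + 1) / p) (fun k hk => ?_) (fun k hk k' hk' h => ?_)
  · simp only [coe_filter, mem_filter, mem_Ico, Set.mem_ofPred_eq, mem_range] at hk ⊢
    have h1 : p * ((q * k + 1) / p) = q * k + 1 := Nat.mul_div_cancel' hk.2.2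
    refine ⟨⟨⟨Nat.pos_of_ne_zero fun h => ?_, ?_⟩, ?_⟩, ?_⟩
    · rw [h] at h1; omega
    · exact Nat.lt_of_mul_lt_mul_left (a := p) (by rw [h1]; exact hK k hk.1)
    · rw [h1]; exact hk.2.1.2
    · rw [h1, Nat.add_sub_cancel]; exact Nat.mul_dvd_mul_left q hk.2.1.1.2
  · simp only [coe_filter, Set.mem_ofPred_eq] at hk hk'
    have h1 : p * ((q * k + 1) / p) = q * k + 1 := Nat.mul_div_cancel' hk.2.2
    have h2 : p * ((q * k' + 1) / p) = q * k' + 1 := Nat.mul_div_cancel' hk'.2.2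
    simp only at h
    rw [h, h2] at h1
    exact (Nat.eq_of_mul_eq_mul_left hq (by omega)).symm

theorem TT_split (Js : Finset ι) (D : ι → ℕ) (ρ : ℕ) {d p q K : ℕ} {g : ℝ} (hp : p.Prime) (hq : q.Prime)
    (hd : 1 ≤ d) (hqd : Nat.Coprime q d) (hD : ∀ j ∈ Js, 1 ≤ D j ∧ Nat.Coprime (D j) d)
    (hg0 : 0 ≤ g) (hg : ∀ k < K, gam Js D k ≤ g) :
    |TT Js D d ρ p q K - (K : ℝ) / ((p : ℝ) - 1) * ((∑ j ∈ Js, 1 / (D j : ℝ)) / d) -
      ∑ k ∈ range K, gam Js D k * (if q * k + 1 ≡ ρ [MOD d] then 1 else 0) * SQ.kp (-1) p (q * k)| ≤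
      1 / ((p : ℝ) - 1) * (2 * Js.card + g * ((K : ℝ) / p + if p = q then (K : ℝ) else 0)) := by
  have hp1 : (0 : ℝ) < (p : ℝ) - 1 := by
    have : (1 : ℝ) < p := by exact_mod_cast hp.one_lt
    linarith
  have e1 : TT Js D d ρ p q K - (K : ℝ) / ((p : ℝ) - 1) * ((∑ j ∈ Js, 1 / (D j : ℝ)) / d) -
      ∑ k ∈ range K, gam Js D k * (if q * k + 1 ≡ ρ [MOD d] then 1 else 0) * SQ.kp (-1) p (q * k) =
      1 / ((p : ℝ) - 1) * ((∑ k ∈ range K, gam Js D k * (if q * k + 1 ≡ ρ [MOD d] then 1 else 0) -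
        (K : ℝ) / d * ∑ j ∈ Js, 1 / (D j : ℝ)) - ∑ k ∈ range K,
          gam Js D k * (if q * k + 1 ≡ ρ [MOD d] then 1 else 0) * (if p ∣ q * k then 1 else 0)) := by
    have e2 : ∀ k, SQ.kp (-1) p (q * k) = (if p ∣ q * k + 1 then 1 else 0) - 1 / ((p : ℝ) - 1) +
        1 / ((p : ℝ) - 1) * (if p ∣ q * k then 1 else 0) := fun k => by
      have e3 : ((p : ℤ) ∣ ((q * k : ℕ) : ℤ) - -1) ↔ p ∣ q * k + 1 := by
        rw [sub_neg_eq_add]; exact_mod_cast Iff.rfl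
      simp only [SQ.kp, e3]
      by_cases h : p ∣ q * k <;> simp only [h, if_true, if_false] <;> ring
    simp only [e2, TT, mul_add, mul_sub, sum_add_distrib, sum_sub_distrib, mul_sum, sum_div]
    have e4 : ∑ k ∈ range K, gam Js D k * (if q * k + 1 ≡ ρ [MOD d] then 1 else 0) * (1 / ((p : ℝ) - 1)) =
        ∑ k ∈ range K, 1 / ((p : ℝ) - 1) * (gam Js D k * (if q * k + 1 ≡ ρ [MOD d] then 1 else 0)) :=
      sum_congr rfl fun _ _ => by ring
    have e5 : ∑ k ∈ range K, gam Js D k * (if q * k + 1 ≡ ρ [MOD d] then 1 else 0) *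
        (1 / ((p : ℝ) - 1) * (if p ∣ q * k then 1 else 0)) = ∑ k ∈ range K, 1 / ((p : ℝ) - 1) *
          (gam Js D k * (if q * k + 1 ≡ ρ [MOD d] then 1 else 0) * (if p ∣ q * k then 1 else 0)) :=
      sum_congr rfl fun _ _ => by ring
    have e6 : ∑ j ∈ Js, (K : ℝ) / ((p : ℝ) - 1) * (1 / (D j : ℝ) / d) =
        ∑ j ∈ Js, 1 / ((p : ℝ) - 1) * ((K : ℝ) / d * (1 / (D j : ℝ))) :=
      sum_congr rfl fun _ _ => by ring
    rw [e4, e5, e6]
    ring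
  rw [e1, abs_mul, abs_of_pos (by positivity : 0 < 1 / ((p : ℝ) - 1))]
  refine mul_le_mul_of_nonneg_left ((abs_sub _ _).trans
    (add_le_add (main_one Js D K ρ hd hqd hD) ?_)) (by positivity)
  rw [abs_of_nonneg (sum_nonneg fun k _ => mul_nonneg (mul_nonneg (gam_nonneg _ _ _)
    (by split_ifs <;> norm_num)) (by split_ifs <;> norm_num))]
  refine le_trans ?_ (mul_le_mul_of_nonneg_left (card_bad (K := K) hp hq) hg0)
  rw [card_filter]
  push_cast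
  rw [mul_sum]
  refine sum_le_sum fun k hk => ?_
  have h1 := hg k (mem_range.1 hk)
  rcases eq_or_ne k 0 with rfl | h0
  · simp [gam_zero]
  · by_cases h2 : q * k + 1 ≡ ρ [MOD d] <;> by_cases h3 : p ∣ q * k <;> simp [h0, h1, h2, h3, hg0]

variable {N A d : ℕ} {G Q : Finset ℕ} {Js : Finset ι} {D : ι → ℕ} {g Y Z R : ℝ}

theorem kappa (h : Hyp N A d G Q Js D g Y Z R) (ρ : ℕ) (κ : ℕ → ℕ → ℕ)
    (hκ : ∀ p ∈ G, ∀ q ∈ Q, (κ (ix R p) (ix R q) : ℝ) ≤ 13 * N / q) :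
    |∑ p ∈ G, ∑ q ∈ Q, TT Js D d ρ p q (κ (ix R p) (ix R q)) -
      ∑ p ∈ G, ∑ q ∈ Q, (κ (ix R p) (ix R q) : ℝ) / ((p : ℝ) - 1) *
        ((∑ j ∈ Js, 1 / (D j : ℝ)) / d)| ≤
      (R * Real.log N + 1) ^ 2 * (272 * d * g * Z) +
        2 * (2 * Q.card * Js.card + g * (13 * N / A * (∑ q ∈ Q, 1 / (q : ℝ) + 1))) := by
  have h2 : (2 : ℝ) ≤ A := by exact_mod_cast h.hA
  have hb := pieces ρ G Q (gam Js D) κ h.hG (by linarith [h.hA]) h.hAN h.hd h.hg0 h.hR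
    (fun k hk => by rw [abs_of_nonneg (gam_nonneg _ _ _)]; exact h.hg k hk)
    (fun q hq => ⟨(h.hQ q hq).1.pos, (h.hQ q hq).2.1, (h.hQ q hq).2.2.1, (h.hQ q hq).2.2.2.1⟩)
    hκ h.h3 h.h4 h.hZ h.hYZ
  have hθ : 0 ≤ ∑ q ∈ Q, 1 / (q : ℝ) := sum_nonneg fun _ _ => by positivity
  have hg0 := h.hg0
  have hc : |∑ p ∈ G, ∑ q ∈ Q, (TT Js D d ρ p q (κ (ix R p) (ix R q)) -
      (κ (ix R p) (ix R q) : ℝ) / ((p : ℝ) - 1) * ((∑ j ∈ Js, 1 / (D j : ℝ)) / d) -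
      ∑ k ∈ range (κ (ix R p) (ix R q)),
        gam Js D k * (if q * k + 1 ≡ ρ [MOD d] then 1 else 0) * SQ.kp (-1) p (q * k))| ≤
      2 * (2 * Q.card * Js.card + g * (13 * N / A * (∑ q ∈ Q, 1 / (q : ℝ) + 1))) := by
    refine (abs_sum_le_sum_abs _ _).trans (h.sum_le (by positivity) fun p hp => ?_)
    obtain ⟨p1, p2, -, p4, -⟩ := h.prime hp
    have p5 : (0 : ℝ) < p := by linarith
    refine (abs_sum_le_sum_abs _ _).trans ?_
    have e1 : ∀ q ∈ Q, |TT Js D d ρ p q (κ (ix R p) (ix R q)) -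
        (κ (ix R p) (ix R q) : ℝ) / ((p : ℝ) - 1) * ((∑ j ∈ Js, 1 / (D j : ℝ)) / d) -
        ∑ k ∈ range (κ (ix R p) (ix R q)),
          gam Js D k * (if q * k + 1 ≡ ρ [MOD d] then 1 else 0) * SQ.kp (-1) p (q * k)| ≤
        1 / ((p : ℝ) - 1) * (2 * Js.card + g * (13 * N / A * (1 / (q : ℝ) +
          if p = q then 1 else 0))) := fun q hq => by
      obtain ⟨q1, -, -, -, q5⟩ := h.hQ q hq
      have q6 : (1 : ℝ) ≤ q := by exact_mod_cast q1.one_lt.le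
      have hK := hκ p hp q hq
      refine (TT_split Js D ρ p1 q1 h.hd q5 h.hD hg0 fun k hk => h.hg k ?_).trans ?_
      · have b2 : (k : ℝ) ≤ κ (ix R p) (ix R q) := by exact_mod_cast hk.le
        have b3 : (13 * N : ℝ) / q ≤ 13 * N := div_le_self (by positivity) q6
        have b1 : (k : ℝ) ≤ ((13 * N : ℕ) : ℝ) := by push_cast; linarith
        exact_mod_cast b1
      · have b1 : (κ (ix R p) (ix R q) : ℝ) / p ≤ 13 * N / A * (1 / q) := by
          calc (κ (ix R p) (ix R q) : ℝ) / p ≤ (13 * N / q) / A := by gcongr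
            _ = 13 * N / A * (1 / q) := by ring
        have b2 : (if p = q then (κ (ix R p) (ix R q) : ℝ) else 0) ≤
            13 * N / A * (if p = q then 1 else 0) := by
          split_ifs with e
          · subst e
            rw [mul_one]
            exact hK.trans (by gcongr)
          · simp
        rw [mul_add (13 * (N : ℝ) / A)]
        gcongr
    refine (sum_le_sum e1).trans ?_
    rw [← mul_sum, sum_add_distrib, ← mul_sum, ← mul_sum, ← mul_sum, sum_add_distrib, sum_const,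
      nsmul_eq_mul, sum_ite_eq]
    have e2 : (if p ∈ Q then (1 : ℝ) else 0) ≤ 1 := by split_ifs <;> norm_num
    rw [show (2 : ℝ) * (Q.card * Js.card) = 2 * Q.card * Js.card by ring]
    gcongr
  simp only [sum_sub_distrib] at hc
  rw [abs_le] at hb hc ⊢
  constructor <;> linarith [hb.1, hb.2, hc.1, hc.2]

/-- the sum to be estimated -/
noncomputable def SS (G Q : Finset ℕ) (Js : Finset ι) (D : ι → ℕ) (d ρ u : ℕ) : ℝ :=
  ∑ p ∈ G, ∑ q ∈ Q, ∑ j ∈ Js, (((((Ico 1 u).filter (fun m => p * m ≡ ρ [MOD d])).filter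
    (fun m => q * D j ∣ p * m - 1)).card : ℕ) : ℝ)

theorem upper (h : Hyp N A d G Q Js D g Y Z R) (ρ : ℕ) {u : ℕ} (hu : A * u ≤ 2 * N) :
    SS G Q Js D d ρ u ≤ (1 + (4 / R + 6 / A)) *
      (∑ _p ∈ G, ∑ q ∈ Q, (u : ℝ) / q * ((∑ j ∈ Js, 1 / (D j : ℝ)) / d)) + EE N A d Q Js g Z R := by
  have hA2 : (2 : ℝ) ≤ A := by exact_mod_cast h.hA
  have hR := h.hR
  have hR0 : 0 < R := by linarith
  have hJ := h.sumJ
  have hΓ0 : 0 ≤ ∑ j ∈ Js, 1 / (D j : ℝ) := sum_nonneg fun _ _ => by positivity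
  have hl0 : 0 < Real.exp (1 / R) := Real.exp_pos _
  have hl1 : Real.exp (1 / R) ^ 2 ≤ 1 + 4 / R := exp_sq_le hR
  have hl2 : 4 / R ≤ 2 := by rw [div_le_iff₀ hR0]; linarith
  have hpq := fun p (hp : p ∈ G) q (hq : q ∈ Q) => h.pq hu hp hq
  generalize Real.exp (1 / R) = lam at hl0 hl1 hpq
  have hup1 : ∀ p ∈ G, ∀ q ∈ Q, (⌈lam * lo R (ix R p) * u / lo R (ix R q)⌉₊ : ℝ) ≤
      lam ^ 2 * (p * u / q) + 1 := fun p hp q hq => by
    obtain ⟨b1, -, -, b4, b5, -⟩ := hpq p hp q hq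
    have c1 := lo_pos R (ix R p)
    have c2 := lo_pos R (ix R q)
    have c3 : lam * lo R (ix R p) * u / lo R (ix R q) ≤ lam ^ 2 * (p * u / q) := by
      calc lam * lo R (ix R p) * u / lo R (ix R q)
          = lam ^ 2 * (lo R (ix R p) * u / (lam * lo R (ix R q))) := by field_simp
        _ ≤ lam ^ 2 * (p * u / q) := by gcongr
    linarith only [c3,
      Nat.ceil_lt_add_one (a := lam * lo R (ix R p) * u / lo R (ix R q)) (by positivity)]
  have hup := kappa h ρ (fun i j => ⌈lam * lo R i * u / lo R j⌉₊) fun p hp q hq => by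
    obtain ⟨-, -, -, -, b5, b6, b7⟩ := hpq p hp q hq
    refine (hup1 p hp q hq).trans ?_
    have c1 : (1 : ℝ) ≤ N / q := by rw [le_div_iff₀ (by linarith only [b5])]; linarith only [b6]
    have c2 : lam ^ 2 * ((p : ℝ) * u / q) ≤ 3 * (4 * N / q) := by
      gcongr; linarith only [hl1, hl2]
    have c3 : (13 : ℝ) * N / q = 3 * (4 * N / q) + N / q := by ring
    linarith only [c1, c2, c3]
  have hup2 : SS G Q Js D d ρ u ≤
      ∑ p ∈ G, ∑ q ∈ Q, TT Js D d ρ p q ⌈lam * lo R (ix R p) * u / lo R (ix R q)⌉₊ := by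
    refine sum_le_sum fun p hp => sum_le_sum fun q hq => ?_
    rw [TT_eq]
    refine sum_le_sum fun j _ => ?_
    obtain ⟨-, b2, b3, -, b5, -⟩ := hpq p hp q hq
    refine Nat.cast_le.2 (card_le_up (h.prime hp).1 fun k hk => ?_)
    rw [Nat.lt_ceil, lt_div_iff₀ (lo_pos _ _)]
    have c1 : ((q * k + 1 : ℕ) : ℝ) < ((p * u : ℕ) : ℝ) := by exact_mod_cast hk
    push_cast at c1
    have c2 : (k : ℝ) * lo R (ix R q) ≤ k * q := by gcongr
    have c3 : (p : ℝ) * u ≤ lam * lo R (ix R p) * u := by gcongr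
    linarith only [c1, c2, c3]
  have hup3 : ∑ p ∈ G, ∑ q ∈ Q, (⌈lam * lo R (ix R p) * u / lo R (ix R q)⌉₊ : ℝ) / ((p : ℝ) - 1) *
      ((∑ j ∈ Js, 1 / (D j : ℝ)) / d) ≤ (1 + (4 / R + 6 / A)) *
        (∑ _p ∈ G, ∑ q ∈ Q, (u : ℝ) / q * ((∑ j ∈ Js, 1 / (D j : ℝ)) / d)) +
        ∑ p ∈ G, ∑ _q ∈ Q, 1 / ((p : ℝ) - 1) * ((∑ j ∈ Js, 1 / (D j : ℝ)) / d) := by
    generalize ∑ j ∈ Js, 1 / (D j : ℝ) = Γ at hΓ0
    simp only [mul_sum, ← sum_add_distrib]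
    refine sum_le_sum fun p hp => sum_le_sum fun q hq => ?_
    obtain ⟨-, -, -, p4, p5⟩ := h.prime hp
    rw [← mul_assoc, ← add_mul]
    refine mul_le_mul_of_nonneg_right ?_ (by positivity)
    have c1 : (p : ℝ) / (p - 1) ≤ 1 + 2 / A := by
      have : (p : ℝ) / (p - 1) = 1 + 1 / (p - 1) := by field_simp; ring
      linarith only [this, p5]
    have c2 : lam ^ 2 * ((p : ℝ) / (p - 1)) ≤ 1 + (4 / R + 6 / A) := by
      have c3 : (0 : ℝ) ≤ 2 / A := by positivity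
      calc lam ^ 2 * ((p : ℝ) / (p - 1)) ≤ (1 + 4 / R) * (1 + 2 / A) := by gcongr
        _ = 1 + 4 / R + (1 + 4 / R) * (2 / A) := by ring
        _ ≤ 1 + 4 / R + 3 * (2 / A) := by gcongr; linarith only [hl2]
        _ = _ := by ring
    calc _ ≤ (lam ^ 2 * (p * u / q) + 1) / ((p : ℝ) - 1) := by gcongr; exact hup1 p hp q hq
      _ = lam ^ 2 * ((p : ℝ) / (p - 1)) * (u / q) + 1 / ((p : ℝ) - 1) := by ring
      _ ≤ _ := by gcongr
  unfold EE
  linarith only [hup2, hup3, (abs_le.1 hup).2, hJ]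

theorem lower (h : Hyp N A d G Q Js D g Y Z R) (ρ : ℕ) {u : ℕ} (hu : A * u ≤ 2 * N) :
    (1 - 4 / R) * (∑ _p ∈ G, ∑ q ∈ Q, (u : ℝ) / q * ((∑ j ∈ Js, 1 / (D j : ℝ)) / d)) -
      EE N A d Q Js g Z R ≤ SS G Q Js D d ρ u := by
  have hR := h.hR
  have hR0 : 0 < R := by linarith
  have hJ := h.sumJ
  have hΓ0 : 0 ≤ ∑ j ∈ Js, 1 / (D j : ℝ) := sum_nonneg fun _ _ => by positivity
  have hl0 : 0 < Real.exp (1 / R) := Real.exp_pos _
  have hl1 : Real.exp (1 / R) ^ 2 ≤ 1 + 4 / R := exp_sq_le hR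
  have hpq := fun p (hp : p ∈ G) q (hq : q ∈ Q) => h.pq hu hp hq
  generalize Real.exp (1 / R) = lam at hl0 hl1 hpq
  have hl3 : 1 - 4 / R ≤ 1 / lam ^ 2 := by
    rw [le_div_iff₀ (by positivity)]
    have h1 : 0 ≤ 4 / R := by positivity
    rcases le_total (1 - 4 / R) 0 with h2 | h2
    · nlinarith only [sq_nonneg lam, h2]
    · nlinarith only [mul_le_mul_of_nonneg_left hl1 h2, h1]
  have hlo := kappa h ρ (fun i j => ⌊lo R i * u / (lam * lo R j)⌋₊) fun p hp q hq => by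
    obtain ⟨b1, -, -, b4, b5, b6, b7⟩ := hpq p hp q hq
    have c1 := lo_pos R (ix R p)
    have c2 := lo_pos R (ix R q)
    refine (Nat.floor_le (by positivity)).trans ?_
    calc lo R (ix R p) * u / (lam * lo R (ix R q)) ≤ p * u / q := by gcongr
      _ ≤ 13 * N / q := div_le_div_of_nonneg_right (by linarith only [b5, b6, b7])
        (by linarith only [b5])
  have hlo2 : ∑ p ∈ G, ∑ q ∈ Q, TT Js D d ρ p q ⌊lo R (ix R p) * u / (lam * lo R (ix R q))⌋₊ ≤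
      SS G Q Js D d ρ u := by
    refine sum_le_sum fun p hp => sum_le_sum fun q hq => ?_
    rw [TT_eq]
    refine sum_le_sum fun j _ => ?_
    obtain ⟨b1, -, -, b4, b5, -⟩ := hpq p hp q hq
    have c1 := lo_pos R (ix R p)
    have c2 := lo_pos R (ix R q)
    refine Nat.cast_le.2 (card_le_down (h.hQ q hq).1.pos fun k hk => ?_)
    rw [← Nat.add_one_le_iff, Nat.le_floor_iff (by positivity), le_div_iff₀ (by positivity)] at hk
    push_cast at hk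
    have c3 : ((k : ℝ) + 1) * q < (k + 1) * (lam * lo R (ix R q)) := by gcongr
    have c4 : lo R (ix R p) * u ≤ p * u := by gcongr
    have c5 : ((q * k + 1 : ℕ) : ℝ) < ((p * u : ℕ) : ℝ) := by
      push_cast; linarith only [c3, c4, hk, b5]
    exact_mod_cast c5
  have hlo3 : (1 - 4 / R) * (∑ _p ∈ G, ∑ q ∈ Q, (u : ℝ) / q * ((∑ j ∈ Js, 1 / (D j : ℝ)) / d)) -
      ∑ p ∈ G, ∑ _q ∈ Q, 1 / ((p : ℝ) - 1) * ((∑ j ∈ Js, 1 / (D j : ℝ)) / d) ≤
      ∑ p ∈ G, ∑ q ∈ Q, (⌊lo R (ix R p) * u / (lam * lo R (ix R q))⌋₊ : ℝ) / ((p : ℝ) - 1) *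
        ((∑ j ∈ Js, 1 / (D j : ℝ)) / d) := by
    generalize ∑ j ∈ Js, 1 / (D j : ℝ) = Γ at hΓ0
    simp only [mul_sum, ← sum_sub_distrib]
    refine sum_le_sum fun p hp => sum_le_sum fun q hq => ?_
    obtain ⟨-, -, -, p4, -⟩ := h.prime hp
    obtain ⟨-, b2, b3, -, b5, -⟩ := hpq p hp q hq
    have c1 := lo_pos R (ix R p)
    have c2 := lo_pos R (ix R q)
    rw [← mul_assoc, ← sub_mul]
    refine mul_le_mul_of_nonneg_right ?_ (by positivity)
    have c3 : 1 / lam ^ 2 * ((p : ℝ) * u / q) ≤ lo R (ix R p) * u / (lam * lo R (ix R q)) := by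
      calc 1 / lam ^ 2 * ((p : ℝ) * u / q)
          ≤ 1 / lam ^ 2 * (lam * lo R (ix R p) * u / lo R (ix R q)) := by gcongr
        _ = _ := by field_simp
    have c4 := Nat.lt_floor_add_one (lo R (ix R p) * u / (lam * lo R (ix R q)))
    have c5 : (1 : ℝ) ≤ p / (p - 1) := by rw [le_div_iff₀ p4]; linarith only
    calc (1 - 4 / R) * ((u : ℝ) / q) - 1 / ((p : ℝ) - 1)
        ≤ 1 / lam ^ 2 * ((u : ℝ) / q) * (p / (p - 1)) - 1 / ((p : ℝ) - 1) := by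
          have c6 : (1 - 4 / R) * ((u : ℝ) / q) ≤ 1 / lam ^ 2 * ((u : ℝ) / q) := by gcongr
          have c7 : 1 / lam ^ 2 * ((u : ℝ) / q) ≤ 1 / lam ^ 2 * ((u : ℝ) / q) * (p / (p - 1)) :=
            le_mul_of_one_le_right (by positivity) c5
          linarith only [c6, c7]
      _ = (1 / lam ^ 2 * ((p : ℝ) * u / q) - 1) / ((p : ℝ) - 1) := by ring
      _ ≤ _ := div_le_div_of_nonneg_right (by linarith only [c3, c4]) p4.le
  unfold EE
  linarith only [hlo2, hlo3, (abs_le.1 hlo).1, hJ]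

/-- the abstract one sided estimate -/
theorem core (h : Hyp N A d G Q Js D g Y Z R) (ρ : ℕ) {u : ℕ} (hu : A * u ≤ 2 * N) :
    |∑ p ∈ G, ∑ m ∈ (Ico 1 u).filter (fun m => p * m ≡ ρ [MOD d]),
        ∑ q ∈ Q, ∑ j ∈ Js, (if q * D j ∣ p * m - 1 then (1 : ℝ) else 0) -
      (G.card : ℝ) * ((u : ℝ) / d) * ((∑ q ∈ Q, 1 / (q : ℝ)) * ∑ j ∈ Js, 1 / (D j : ℝ))| ≤
      EE N A d Q Js g Z R +
        (4 / R + 6 / A) * (2 * N * ((∑ q ∈ Q, 1 / (q : ℝ)) * ∑ j ∈ Js, 1 / (D j : ℝ))) := by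
  have hR0 : 0 < R := by linarith [h.hR]
  have hd1 : (1 : ℝ) ≤ d := by exact_mod_cast h.hd
  have hu' : (A : ℝ) * u ≤ 2 * N := by exact_mod_cast hu
  have hu0 : (0 : ℝ) ≤ u := Nat.cast_nonneg u
  have hθ0 : 0 ≤ ∑ q ∈ Q, 1 / (q : ℝ) := sum_nonneg fun _ _ => by positivity
  have hΓ0 : 0 ≤ ∑ j ∈ Js, 1 / (D j : ℝ) := sum_nonneg fun _ _ => by positivity
  have hS : ∑ p ∈ G, ∑ m ∈ (Ico 1 u).filter (fun m => p * m ≡ ρ [MOD d]),
      ∑ q ∈ Q, ∑ j ∈ Js, (if q * D j ∣ p * m - 1 then (1 : ℝ) else 0) = SS G Q Js D d ρ u := by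
    refine sum_congr rfl fun p _ => ?_
    rw [sum_comm]
    refine sum_congr rfl fun q _ => ?_
    rw [sum_comm]
    refine sum_congr rfl fun j _ => ?_
    rw [card_filter]
    push_cast
    rfl
  have hup := upper h ρ hu
  have hlo := lower h ρ hu
  have hM : ∑ _p ∈ G, ∑ q ∈ Q, (u : ℝ) / q * ((∑ j ∈ Js, 1 / (D j : ℝ)) / d) =
      (G.card : ℝ) * ((u : ℝ) / d) * ((∑ q ∈ Q, 1 / (q : ℝ)) * ∑ j ∈ Js, 1 / (D j : ℝ)) := by
    rw [sum_const, nsmul_eq_mul, ← sum_mul]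
    have : ∑ q ∈ Q, (u : ℝ) / q = u * ∑ q ∈ Q, 1 / (q : ℝ) := by
      rw [mul_sum]; exact sum_congr rfl fun _ _ => by ring
    rw [this]; ring
  rw [hM] at hup hlo
  rw [hS]
  have h0 := mul_nonneg hθ0 hΓ0
  generalize (∑ q ∈ Q, 1 / (q : ℝ)) * ∑ j ∈ Js, 1 / (D j : ℝ) = W at *
  have hM1 : (G.card : ℝ) * ((u : ℝ) / d) * W ≤ 2 * N * W := by
    have h1 : (G.card : ℝ) * ((u : ℝ) / d) ≤ A * u :=
      mul_le_mul h.card (div_le_self hu0 hd1) (by positivity) (by positivity)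
    exact mul_le_mul_of_nonneg_right (h1.trans hu') h0
  have hM0 : 0 ≤ (G.card : ℝ) * ((u : ℝ) / d) * W := by positivity
  have e1 : 0 ≤ 4 / R := by positivity
  have e2 : (0 : ℝ) ≤ 6 / A := by positivity
  have e3 := mul_le_mul_of_nonneg_left hM1 (add_nonneg e1 e2)
  have e4 := mul_nonneg e2 hM0
  rw [abs_le]
  constructor <;> linarith only [hup, hlo, e3, e4]

end Vale.Agent.N016.TIc
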